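import Vale.Agent.P022.H472.Lit

/-!
P022, block [THI] (helper761): the theta series of an ideal of an imaginary quadratic field is a
modular form, from [MFT], [IB] and the summability in [PO].
-/

set_option linter.all false

open scoped ModularForm MatrixGroups Manifold NumberField
open UpperHalfPlane Matrix CongruenceSubgroup

noncomputable section

namespace Vale.Agent.P022.H761

theorem idT_eq {K : Type} [Field K] [NumberField K] {σ : K →+* ℂ} {𝔟 : Ideal (𝓞 K)}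
    (hb : 𝔟 ≠ ⊥) {a b c : ℤ} {D : ℕ} {φ : (ℤ × ℤ) ≃+ 𝔟} {ρ : ℂ}
    (hφ : ∀ v, σ (φ v : 𝓞 K) = ρ * ev a b D v ∧
      (Ideal.absNorm (Ideal.span {(φ v : 𝓞 K)}) : ℤ) = Qf a b c v * Ideal.absNorm 𝔟)
    (f : 𝓞 K → ℂ) (κ : ℕ) (w : ℂ) (v : ℤ × ℤ) :
    idT σ 𝔟 f κ w (φ v) = thT a b c D κ (fun v => ρ ^ κ * f (φ v)) w v := by
  have hN : (Ideal.absNorm 𝔟 : ℂ) ≠ 0 := by
    have : Ideal.absNorm 𝔟 ≠ 0 := fun h => hb (Ideal.absNorm_eq_zero_iff.1 h)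
    exact_mod_cast this
  have h2 : (Ideal.absNorm (Ideal.span {(φ v : 𝓞 K)}) : ℂ) / Ideal.absNorm 𝔟 =
      (Qf a b c v : ℂ) := by
    rw [div_eq_iff hN]
    exact_mod_cast (hφ v).2
  rw [idT, thT, (hφ v).1, h2, mul_pow]
  ring

theorem hasSum_idT (hP : POStmt) {K : Type} [Field K] [NumberField K] {σ : K →+* ℂ}
    {𝔟 : Ideal (𝓞 K)} (hb : 𝔟 ≠ ⊥) {a b c : ℤ} {D : ℕ} (ha : 0 < a) (hD : 0 < D)
    (hd : b ^ 2 - 4 * a * c = -(D : ℤ)) {φ : (ℤ × ℤ) ≃+ 𝔟} {ρ : ℂ}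
    (hφ : ∀ v, σ (φ v : 𝓞 K) = ρ * ev a b D v ∧
      (Ideal.absNorm (Ideal.span {(φ v : 𝓞 K)}) : ℤ) = Qf a b c v * Ideal.absNorm 𝔟)
    {m : ℕ} (hm : 0 < m) {f : 𝓞 K → ℂ} (κ : ℕ) (hF : Per m fun v => ρ ^ κ * f (φ v)) (τ : ℍ) :
    HasSum (idT σ 𝔟 f κ τ) (th a b c D κ (fun v => ρ ^ κ * f (φ v)) τ) := by
  rw [← φ.toEquiv.hasSum_iff]
  have h1 := (hP a b c D ha hD hd κ m hm _ hF (τ : ℂ) τ.im_pos).1.hasSum
  refine h1.congr_fun ?_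
  intro v
  exact (idT_eq hb hφ f κ τ v)

theorem per_of {K : Type} [Field K] [NumberField K] {𝔟 : Ideal (𝓞 K)} {m : ℕ} {f : 𝓞 K → ℂ}
    (hf : PerO m f) (φ : (ℤ × ℤ) ≃+ 𝔟) (z : ℂ) : Per m fun v => z * f (φ v) := by
  intro v w
  have h1 : ((φ (v + (m : ℤ) • w) : 𝔟) : 𝓞 K) = (φ v : 𝓞 K) + m * (φ w : 𝓞 K) := by
    rw [map_add, map_zsmul]
    push_cast
    rw [zsmul_eq_mul]
    push_cast
    rfl
  show z * f (φ (v + (m : ℤ) • w)) = z * f (φ v)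
  rw [h1, hf]

/-- **[THI]** -/
theorem THI (hM : MFTStmt) (hI : IBStmt) (hP : POStmt) : THIStmt := by
  intro K _ _ _ _ D hD hO σ m hm 𝔟 hb f hf κ
  have hD0 : 0 < D := hO.pos
  obtain ⟨a, b, c, φ, ρ, ha, hd, hρ, hφ⟩ := hI K D hD σ 𝔟 hb
  obtain ⟨G, hG, hG2⟩ := hM a b c D ha hO hd κ m hm _ (per_of hf φ (ρ ^ κ))
  refine ⟨G, fun τ => ?_, fun ℓ τ => ?_⟩
  · rw [hG τ]
    exact hasSum_idT hP hb ha hD0 hd hφ hm κ (per_of hf φ (ρ ^ κ)) τ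
  · rw [hG2 ℓ τ]
    have hf' : PerO m fun α : 𝓞 K => f (ℓ.1 * α) := by
      intro α β
      show f (ℓ.1 * (α + m * β)) = f (ℓ.1 * α)
      have : (ℓ.1 : 𝓞 K) * (α + m * β) = ℓ.1 * α + m * (ℓ.1 * β) := by ring
      rw [this, hf]
    have h1 := (hasSum_idT (f := fun α : 𝓞 K => f (ℓ.1 * α)) hP hb ha hD0 hd hφ hm κ
      (per_of hf' φ (ρ ^ κ)) τ).mul_left ((jacobiSym (ℓ.1 : ℤ) D : ℤ) : ℂ)
    have e : (fun v : ℤ × ℤ => ρ ^ κ * f (φ ((ℓ.1 : ℤ) • v))) =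
        fun v => ρ ^ κ * f (ℓ.1 * (φ v : 𝓞 K)) := by
      funext v
      have h2 : ((φ ((ℓ.1 : ℤ) • v) : 𝔟) : 𝓞 K) = ℓ.1 * (φ v : 𝓞 K) := by
        rw [map_zsmul]
        push_cast
        rw [zsmul_eq_mul]
        push_cast
        rfl
      rw [h2]
    rw [e]
    exact h1

end Vale.Agent.P022.H761
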