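import Vale.Agent.P022.H472.Lit2

/-!
P022 [VAN1]: a polynomial in the Hecke operators which kills weight `κ + 1` has pairing zero with
`f(α) α^κ`.
-/

open scoped ModularForm MatrixGroups Manifold NumberField
open UpperHalfPlane Matrix CongruenceSubgroup

noncomputable section

namespace Vale.Agent.P022.H761

/-! ### linear extension of a function to the monoid algebra -/

section Ev

variable {I M M' : Type} [AddCommGroup M] [AddCommGroup M']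

/-- the linear extension of a function -/
def Ev (φ : I → M) : MonoidAlgebra ℤ I →+ M where
  toFun x := x.coeff.sum fun a n => n • φ a
  map_zero' := by simp
  map_add' x y := by
    rw [MonoidAlgebra.coeff_add]
    exact Finsupp.sum_add_index' (fun _ => zero_smul _ _) (fun _ _ _ => add_smul _ _ _)

theorem Ev_apply (φ : I → M) (x : MonoidAlgebra ℤ I) :
    Ev φ x = x.coeff.sum fun a n => n • φ a := rfl

theorem Ev_single (φ : I → M) (a : I) (n : ℤ) :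
    Ev φ (MonoidAlgebra.single a n) = n • φ a := by
  rw [Ev_apply, MonoidAlgebra.coeff_single]
  exact Finsupp.sum_single_index (zero_smul _ _)

theorem Ev_map (g : M →+ M') (φ : I → M) (x : MonoidAlgebra ℤ I) :
    g (Ev φ x) = Ev (fun a => g (φ a)) x := by
  induction x using MonoidAlgebra.induction_linear with
  | zero => rw [map_zero, map_zero, map_zero]
  | add x y hx hy => rw [map_add, map_add, map_add, hx, hy]
  | single a n => rw [Ev_single, Ev_single, map_zsmul]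

theorem Ev_single_mul [CommMonoid I] (φ : I → M) (a : I) (n : ℤ) (x : MonoidAlgebra ℤ I) :
    Ev φ (MonoidAlgebra.single a n * x) = n • Ev (fun b => φ (a * b)) x := by
  induction x using MonoidAlgebra.induction_linear with
  | zero => rw [mul_zero, map_zero, map_zero, smul_zero]
  | add x y hx hy => rw [mul_add, map_add, map_add, hx, hy, smul_add]
  | single b r =>
    rw [MonoidAlgebra.single_mul_single, Ev_single, Ev_single, mul_smul]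

end Ev

variable {K : Type} [Field K] [NumberField K]

/-! ### the coefficient of `⊥` -/

theorem frobSum_eq (ℓ : ℕ) :
    frobSum K ℓ = ∑ 𝔭 ∈ (Ideal.finite_setOfPred_absNorm_eq (S := 𝓞 K) ℓ).toFinset,
      MonoidAlgebra.single 𝔭 1 := by
  rw [frobSum, finsum_mem_eq_finite_toFinset_sum _
    (Ideal.finite_setOfPred_absNorm_eq (S := 𝓞 K) ℓ)]

omit [NumberField K] in
theorem bot_mul {x y : MonoidAlgebra ℤ (Ideal (𝓞 K))} (hx : x.coeff ⊥ = 0)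
    (hy : y.coeff ⊥ = 0) : (x * y).coeff ⊥ = 0 := by
  classical
  rw [MonoidAlgebra.coeff_mul]
  refine Finset.sum_eq_zero fun a ha => Finset.sum_eq_zero fun b hb => ?_
  rw [Finsupp.mem_support_iff] at ha hb
  have h1 : a ≠ ⊥ := by
    rintro rfl
    exact ha hx
  have h2 : b ≠ ⊥ := by
    rintro rfl
    exact hb hy
  exact if_neg (mul_ne_zero h1 h2)

theorem Lam_bot (N : ℕ) (χ : ℕ → ℤ) (P : FreeAlgebra ℤ (Gen N)) :
    (Lam K N χ P).coeff ⊥ = 0 := by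
  classical
  induction P using FreeAlgebra.induction with
  | grade0 r =>
    rw [AlgHom.commutes, Algebra.algebraMap_eq_smul_one, MonoidAlgebra.coeff_smul,
      MonoidAlgebra.one_def, MonoidAlgebra.coeff_single, Finsupp.smul_apply,
      Finsupp.single_eq_of_ne, smul_zero]
    exact (zero_ne_one : (0 : Ideal (𝓞 K)) ≠ 1)
  | grade1 s =>
    rw [Lam, FreeAlgebra.lift_ι_apply]
    rcases s with ℓ | ℓ
    · rw [Sum.elim_inl, frobSum_eq ℓ.1, MonoidAlgebra.coeff_sum, Finsupp.finsetSum_apply]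
      refine Finset.sum_eq_zero fun 𝔭 h𝔭 => ?_
      rw [Set.Finite.mem_toFinset] at h𝔭
      rw [MonoidAlgebra.coeff_single, Finsupp.single_eq_of_ne]
      rintro rfl
      have h1 : Ideal.absNorm (⊥ : Ideal (𝓞 K)) = ℓ.1 := h𝔭
      rw [Ideal.absNorm_bot] at h1
      exact ℓ.2.1.ne_zero h1.symm
    · rw [Sum.elim_inr, MonoidAlgebra.coeff_single, Finsupp.single_eq_of_ne]
      intro h
      have h1 := h.symm
      rw [Ideal.span_singleton_eq_bot] at h1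
      exact ℓ.2.1.ne_zero (by exact_mod_cast h1)
  | mul a b ha hb =>
    rw [map_mul]
    exact bot_mul ha hb
  | add a b ha hb =>
    rw [map_add, MonoidAlgebra.coeff_add, Finsupp.add_apply, ha, hb, add_zero]

/-! ### the intertwining property -/

theorem inter {N κ : ℕ} [NeZero N] {χ : ℕ → ℤ} (Gf : Ideal (𝓞 K) → MF N (κ + 1))
    (h : ∀ s 𝔞, gHk N s κ (Gf 𝔞) =
      Ev (fun 𝔠 => Gf (𝔞 * 𝔠)) (Lam K N χ (FreeAlgebra.ι ℤ s)))
    (P : FreeAlgebra ℤ (Gen N)) (x : MonoidAlgebra ℤ (Ideal (𝓞 K))) :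
    FreeAlgebra.lift ℤ (fun s => gHk N s κ) P (Ev Gf x) = Ev Gf (x * Lam K N χ P) := by
  induction P using FreeAlgebra.induction generalizing x with
  | grade0 r =>
    rw [AlgHom.commutes, AlgHom.commutes, Algebra.algebraMap_eq_smul_one,
      Algebra.algebraMap_eq_smul_one, mul_smul_comm, mul_one, map_zsmul]
    rfl
  | grade1 s =>
    rw [FreeAlgebra.lift_ι_apply]
    induction x using MonoidAlgebra.induction_linear with
    | zero => rw [zero_mul, map_zero, map_zero]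
    | add x y hx hy => rw [add_mul, map_add, map_add, map_add, hx, hy]
    | single a n => rw [Ev_single, map_zsmul, h, Ev_single_mul]
  | mul a b ha hb =>
    rw [map_mul, Module.End.mul_apply, hb, ha, map_mul (Lam K N χ), mul_assoc,
      mul_comm (Lam K N χ b)]
  | add a b ha hb =>
    rw [map_add, LinearMap.add_apply, ha, hb, map_add, mul_add, map_add]

/-! ### the diamond operator and the theta series -/

/-- multiplication by `ℓ` from `𝔟` to `𝔟 · (ℓ)` -/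
def mulEquiv (𝔟 : Ideal (𝓞 K)) {ℓ : ℕ} (hℓ : ℓ ≠ 0) :
    𝔟 ≃ (𝔟 * Ideal.span {(ℓ : 𝓞 K)} : Ideal (𝓞 K)) :=
  Equiv.ofBijective (fun α => ⟨(ℓ : 𝓞 K) * α, by
    rw [mul_comm (ℓ : 𝓞 K)]
    exact Ideal.mul_mem_mul α.2 (Ideal.mem_span_singleton_self _)⟩) (by
    constructor
    · intro α β h
      have h1 := congrArg Subtype.val h
      have h2 : (ℓ : 𝓞 K) ≠ 0 := by exact_mod_cast hℓ
      exact Subtype.ext (mul_left_cancel₀ h2 h1)
    · intro β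
      obtain ⟨γ, hγ, h⟩ := Ideal.mem_mul_span_singleton.1 β.2
      exact ⟨⟨γ, hγ⟩, Subtype.ext ((mul_comm _ _).trans h)⟩)

theorem mulEquiv_coe (𝔟 : Ideal (𝓞 K)) {ℓ : ℕ} (hℓ : ℓ ≠ 0) (α : 𝔟) :
    (mulEquiv 𝔟 hℓ α : 𝓞 K) = (ℓ : 𝓞 K) * α := rfl

theorem idT_mulEquiv (σ : K →+* ℂ) (𝔟 : Ideal (𝓞 K)) {ℓ : ℕ} (hℓ : ℓ ≠ 0) (f : 𝓞 K → ℂ) (κ : ℕ)
    (w : ℂ) (α : 𝔟) :
    idT σ (𝔟 * Ideal.span {(ℓ : 𝓞 K)}) f κ w (mulEquiv 𝔟 hℓ α) =
      (ℓ : ℂ) ^ κ * idT σ 𝔟 (fun α => f (ℓ * α)) κ w α := by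
  have hn : (Ideal.absNorm (Ideal.span {(ℓ : 𝓞 K)}) : ℂ) ≠ 0 := by
    rw [Ne, Nat.cast_eq_zero, Ideal.absNorm_eq_zero_iff, Ideal.span_singleton_eq_bot]
    exact_mod_cast hℓ
  have e : σ (((ℓ : 𝓞 K) * (α : 𝓞 K) : 𝓞 K) : K) = (ℓ : ℂ) * σ ((α : 𝓞 K) : K) := by
    push_cast
    rw [map_mul, map_natCast]
  rw [idT, idT, mulEquiv_coe, ← Ideal.span_singleton_mul_span_singleton, map_mul, map_mul, e,
    mul_pow, Nat.cast_mul, Nat.cast_mul,
    mul_comm ((Ideal.absNorm 𝔟 : ℕ) : ℂ), mul_div_mul_left _ _ hn]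
  ring

theorem ofInj {M M' : Type} [AddCommGroup M] [AddCommGroup M'] {I : Type} (g : M →+ M')
    (hg : Function.Injective g) (S : Set I) (F : I → M) :
    g (∑ᶠ a ∈ S, F a) = ∑ᶠ a ∈ S, g (F a) := by
  rw [g.map_finsum_of_injective hg]
  simp only [g.map_finsum_of_injective hg]

/-- evaluation at `τ` -/
def evT (N k : ℕ) (τ : ℍ) : MF N k →+ ℂ where
  toFun G := G τ
  map_zero' := rfl
  map_add' _ _ := rfl

theorem evT_apply (N k : ℕ) (τ : ℍ) (G : MF N k) : evT N k τ G = G τ := rfl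

/-- [VAN1] a polynomial in the Hecke operators which kills weight `κ + 1` has pairing zero with
`f(α) α^κ` -/
theorem VAN1 (hT : THIStmt) (hS : SERStmt) (hQ : Q1Stmt) : VAN1Stmt := by
  classical
  intro K _ _ _ _ D hD hodd m hm _ 𝔟 h𝔟 f hf κ P hP
  obtain ⟨σ⟩ : Nonempty (K →+* ℂ) := inferInstance
  set χ : ℕ → ℤ := fun ℓ => jacobiSym (ℓ : ℤ) D with hχ
  set fc : 𝓞 K → ℂ := fun α => (f α : ℂ) with hfc
  have hper : PerO m fc := fun α β => by rw [hfc]; exact congrArg _ (hf α β)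
  have hG : ∀ 𝔠 : Ideal (𝓞 K), ∃ G : MF (D * m ^ 2) (κ + 1), (𝔠 = ⊥ → G = 0) ∧ (𝔠 ≠ ⊥ →
      (∀ τ : ℍ, HasSum (idT σ 𝔠 fc κ τ) (G τ)) ∧
      ∀ (ℓ : PA (D * m ^ 2)) (τ : ℍ), HasSum (fun α : 𝔠 => jacobiSym (ℓ.1 : ℤ) D *
        idT σ 𝔠 (fun α => fc (ℓ.1 * α)) κ τ α) (dFun (D * m ^ 2) (κ + 1) ℓ G τ)) := by
    intro 𝔠
    by_cases h : 𝔠 = ⊥
    · exact ⟨0, fun _ => rfl, fun h2 => absurd h h2⟩
    · obtain ⟨G, h1⟩ := hT K D hD hodd σ m hm 𝔠 h fc hper κ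
      exact ⟨G, fun h2 => absurd h2 h, fun _ => h1⟩
  choose Gf hG0 hG1 using hG
  have hth : ∀ 𝔠 : Ideal (𝓞 K), 𝔠 ≠ ⊥ → ∀ τ : ℍ, Gf 𝔠 τ = thI σ 𝔠 fc κ τ :=
    fun 𝔠 h τ => ((hG1 𝔠 h).1 τ).tsum_eq.symm
  have key : ∀ (s : Gen (D * m ^ 2)) (𝔞 : Ideal (𝓞 K)), gHk (D * m ^ 2) s κ (Gf 𝔞) =
      Ev (fun 𝔠 => Gf (𝔞 * 𝔠)) (Lam K (D * m ^ 2) χ (FreeAlgebra.ι ℤ s)) := by
    intro s 𝔞
    by_cases h𝔞 : 𝔞 = ⊥
    · rw [hG0 𝔞 h𝔞, map_zero]
      have h1 : (fun 𝔠 => Gf (𝔞 * 𝔠)) = fun _ => 0 := by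
        funext 𝔠
        exact hG0 _ (by rw [h𝔞, Ideal.bot_mul])
      rw [h1, Ev_apply]
      exact (Finset.sum_eq_zero fun _ _ => smul_zero _).symm
    · rw [Lam, FreeAlgebra.lift_ι_apply]
      rcases s with ℓ | ℓ
      · rw [Sum.elim_inl, frobSum_eq ℓ.1, map_sum]
        simp only [Ev_single, one_smul]
        refine DFunLike.ext _ _ fun τ => ?_
        have h1 : (gHk (D * m ^ 2) (Sum.inl ℓ) κ (Gf 𝔞) : ℍ → ℂ) = tFun (D * m ^ 2) (κ + 1) ℓ (Gf 𝔞) :=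
          H783.Tl_coe (κ + 1) ℓ (Gf 𝔞)
        have h2 := hS K D hD hodd σ m hm 𝔞 h𝔞 fc κ ℓ (Gf 𝔞) (hG1 𝔞 h𝔞).1
          ((hG1 𝔞 h𝔞).2 ℓ) τ
        rw [h1, h2, finsum_mem_eq_finite_toFinset_sum _
          (Ideal.finite_setOfPred_absNorm_eq (S := 𝓞 K) ℓ.1), ← evT_apply, map_sum]
        refine Finset.sum_congr rfl fun 𝔭 h𝔭 => ?_
        rw [evT_apply, hth]
        refine mul_ne_zero h𝔞 ?_
        rintro rfl
        rw [Set.Finite.mem_toFinset] at h𝔭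
        have h3 : Ideal.absNorm (⊥ : Ideal (𝓞 K)) = ℓ.1 := h𝔭
        rw [Ideal.absNorm_bot] at h3
        exact ℓ.2.1.ne_zero h3.symm
      · rw [Sum.elim_inr, Ev_single]
        refine DFunLike.ext _ _ fun τ => ?_
        have hℓ : ℓ.1 ≠ 0 := ℓ.2.1.ne_zero
        have h𝔞' : 𝔞 * Ideal.span {(ℓ.1 : 𝓞 K)} ≠ ⊥ := by
          refine mul_ne_zero h𝔞 ?_
          rw [Ne, Ideal.zero_eq_bot, Ideal.span_singleton_eq_bot]
          exact_mod_cast hℓ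
        have h1 : gHk (D * m ^ 2) (Sum.inr ℓ) κ (Gf 𝔞) τ =
            (ℓ.1 : ℂ) ^ κ * dFun (D * m ^ 2) (κ + 1) ℓ (Gf 𝔞) τ := by
          rw [← H783.dia_coe (κ + 1) ℓ (Gf 𝔞)]
          rfl
        have h2 := ((hG1 𝔞 h𝔞).2 ℓ τ).mul_left ((ℓ.1 : ℂ) ^ κ)
        have h3 := (((mulEquiv 𝔞 hℓ).hasSum_iff).2 ((hG1 _ h𝔞').1 τ)).mul_left
          (jacobiSym (ℓ.1 : ℤ) D : ℂ)
        have h4 : (((χ ℓ.1) • Gf (𝔞 * Ideal.span {(ℓ.1 : 𝓞 K)}) : MF (D * m ^ 2) (κ + 1)) : ℍ → ℂ) τ =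
            (jacobiSym (ℓ.1 : ℤ) D : ℂ) * Gf (𝔞 * Ideal.span {(ℓ.1 : 𝓞 K)}) τ := by
          rw [← evT_apply, map_zsmul, evT_apply, zsmul_eq_mul]
        rw [h1, h4]
        refine h2.unique ?_
        have h5 : (fun α : 𝔞 => (jacobiSym (ℓ.1 : ℤ) D : ℂ) *
            (idT σ (𝔞 * Ideal.span {(ℓ.1 : 𝓞 K)}) fc κ τ ∘ mulEquiv 𝔞 hℓ) α) =
            fun α : 𝔞 => (ℓ.1 : ℂ) ^ κ * (jacobiSym (ℓ.1 : ℤ) D *
              idT σ 𝔞 (fun α => fc (ℓ.1 * α)) κ τ α) := by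
          funext α
          rw [Function.comp_apply, idT_mulEquiv]
          ring
        rw [h5] at h3
        exact h3
  have hx0 := Lam_bot (K := K) (D * m ^ 2) χ P
  set x := Lam K (D * m ^ 2) χ P with hx
  have hy0 : (MonoidAlgebra.single 𝔟 1 * x).coeff ⊥ = 0 := by
    refine bot_mul ?_ hx0
    rw [MonoidAlgebra.coeff_single, Finsupp.single_eq_of_ne h𝔟.symm]
  have hy : Ev Gf (MonoidAlgebra.single 𝔟 1 * x) = 0 := by
    have h1 := inter Gf key P (MonoidAlgebra.single 𝔟 1)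
    rw [hP] at h1
    exact h1.symm
  set y := MonoidAlgebra.single 𝔟 1 * x with hy'
  have hs : ∀ 𝔠 ∈ y.coeff.support, 𝔠 ≠ ⊥ := by
    rintro 𝔠 h𝔠 rfl
    rw [Finsupp.mem_support_iff] at h𝔠
    exact h𝔠 hy0
  have hq := hQ K σ fc κ y.coeff.support hs (fun 𝔠 => (y.coeff 𝔠 : ℂ))
    (fun 𝔠 h𝔠 τ => ((hG1 𝔠 (hs 𝔠 h𝔠)).1 τ).summable) (fun τ => by
      have h1 := congrArg (evT (D * m ^ 2) (κ + 1) τ) hy
      rw [map_zero, Ev_map, Ev_apply, Finsupp.sum] at h1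
      rw [← h1]
      refine Finset.sum_congr rfl fun 𝔠 h𝔠 => ?_
      rw [zsmul_eq_mul, evT_apply, hth 𝔠 (hs 𝔠 h𝔠)])
  have hinj : Function.Injective (σ : K →+ ℂ) := σ.injective
  refine hinj ?_
  rw [map_zero]
  have h1 : pair (fun α => (f α : K) * (α : K) ^ κ) 𝔟 x =
      Ev (fun 𝔞 => ∑ᶠ α ∈ {α : 𝓞 K | Ideal.span {α} = 𝔟 * 𝔞}, (f α : K) * (α : K) ^ κ) x := rfl
  have h2 : (Ev (fun 𝔠 => ∑ᶠ α ∈ {α : 𝓞 K | Ideal.span {α} = 𝔠}, fc α * σ α ^ κ) y : ℂ) = 0 := by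
    rw [← hq, Ev_apply, Finsupp.sum]
    refine Finset.sum_congr rfl fun 𝔠 _ => ?_
    rw [zsmul_eq_mul]
  rw [hy', Ev_single_mul, one_smul] at h2
  rw [h1, Ev_map, ← h2]
  refine congrArg (fun φ => Ev φ x) ?_
  funext 𝔞
  rw [ofInj _ hinj]
  refine finsum_mem_congr rfl fun α _ => ?_
  change σ ((f α : K) * (α : K) ^ κ) = (f α : ℂ) * σ α ^ κ
  rw [map_mul, map_intCast, map_pow]

end Vale.Agent.P022.H761
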