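import Vale.Agent.P022.H220.Ser
import Vale.Agent.P022.H761.Van

/-!
P022: the weight-free Hecke module and the coefficients of theta series of a quadratic field (real
or imaginary): `pair g 𝔟 (Lam P) = (P b_𝔟) (1, 1)`.
-/

open scoped NumberField
open Ideal

noncomputable section

namespace Vale.Agent.P022.H761

/-! ### the module -/

section Mod

variable (M : Type) [AddCommGroup M]

/-- `T_ℓ` on functions of `(n, δ)` -/
def fT (ℓ : ℕ) : Module.End ℤ (ℕ → ℕ → M) where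
  toFun c := fun n δ => c (ℓ * n) δ + if ℓ ∣ n then c (n / ℓ) (ℓ * δ) else 0
  map_add' c c' := by
    funext n δ
    simp only [Pi.add_apply]
    split_ifs
    · abel
    · abel
  map_smul' r c := by
    funext n δ
    simp only [Pi.smul_apply, RingHom.id_apply]
    split_ifs
    · rw [smul_add]
    · rw [smul_add, smul_zero]

/-- `ℓ S_ℓ` on functions of `(n, δ)` -/
def fS (ℓ : ℕ) : Module.End ℤ (ℕ → ℕ → M) where
  toFun c := fun n δ => c n (ℓ * δ)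
  map_add' _ _ := rfl
  map_smul' _ _ := rfl

/-- a generator on functions of `(n, δ)` -/
def fG (N : ℕ) : Gen N → Module.End ℤ (ℕ → ℕ → M)
  | Sum.inl ℓ => fT M ℓ.1
  | Sum.inr ℓ => fS M ℓ.1

/-- a polynomial in the generators on functions of `(n, δ)` -/
def Wd (N : ℕ) : FreeAlgebra ℤ (Gen N) →ₐ[ℤ] Module.End ℤ (ℕ → ℕ → M) :=
  FreeAlgebra.lift ℤ (fG M N)

end Mod

/-! ### the intertwining property in general -/

section Int

variable {K : Type} [Field K] [NumberField K]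

theorem inter_gen {N : ℕ} {χ : ℕ → ℤ} {V : Type} [AddCommGroup V]
    (act : Gen N → Module.End ℤ V) (Gf : Ideal (𝓞 K) → V)
    (h : ∀ s 𝔞, act s (Gf 𝔞) =
      Ev (fun 𝔠 => Gf (𝔞 * 𝔠)) (Lam K N χ (FreeAlgebra.ι ℤ s)))
    (P : FreeAlgebra ℤ (Gen N)) (x : MonoidAlgebra ℤ (Ideal (𝓞 K))) :
    FreeAlgebra.lift ℤ act P (Ev Gf x) = Ev Gf (x * Lam K N χ P) := by
  induction P using FreeAlgebra.induction generalizing x with
  | grade0 r =>
    rw [AlgHom.commutes, AlgHom.commutes, Algebra.algebraMap_eq_smul_one,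
      Algebra.algebraMap_eq_smul_one, mul_smul_comm, mul_one, map_zsmul]
    rfl
  | grade1 s =>
    rw [FreeAlgebra.lift_ι_apply]
    induction x using MonoidAlgebra.induction_linear with
    | zero => rw [zero_mul, map_zero, map_zero]
    | add x y hx hy => rw [add_mul, map_add, map_add, map_add, hx, hy]
    | single a n => rw [Ev_single, map_zsmul, h, Ev_single_mul]
  | mul a b ha hb =>
    rw [map_mul, Module.End.mul_apply, hb, ha, map_mul (Lam K N χ), mul_assoc,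
      mul_comm (Lam K N χ b)]
  | add a b ha hb =>
    rw [map_add, LinearMap.add_apply, ha, hb, map_add, mul_add, map_add]

end Int

/-! ### sums over norm shells of a supported function -/

section Shell

variable {R : Type} [CommRing R] [IsDedekindDomain R] [Module.Free ℤ R] [Module.Finite ℤ R]
  [CharZero R] {M : Type} [AddCommGroup M] {X : Set R}

open Classical in
omit [Module.Finite ℤ R] [CharZero R] in
theorem sum_shellX (hX : ∀ n : ℕ, {α : R | α ∈ X ∧ absNorm (span {α}) = n}.Finite)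
    (b : Ideal R) (g : R → M) (hg : ∀ α, α ∉ X → g α = 0) (N : ℕ) :
    ∑ᶠ α ∈ {α : R | α ∈ b ∧ absNorm (span {α}) = N}, g α
      = ∑ α ∈ (hX N).toFinset, if α ∈ b then g α else 0 := by
  rw [← Finset.sum_filter]
  refine finsum_mem_eq_sum_of_inter_support_eq _ ?_
  ext α
  simp only [Set.mem_inter_iff, Set.mem_ofPred_eq, Finset.coe_filter, Set.Finite.mem_toFinset,
    Function.mem_support]
  constructor
  · rintro ⟨⟨h1, h2⟩, h3⟩
    exact ⟨⟨⟨by_contra fun h => h3 (hg α h), h2⟩, h1⟩, h3⟩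
  · rintro ⟨⟨⟨-, h2⟩, h1⟩, h3⟩
    exact ⟨⟨h1, h2⟩, h3⟩

variable (h2 : Module.finrank ℤ R = 2) {l : ℕ} (hl : l.Prime)

include h2 hl

/-- helper220's `ser_aux` for functions supported on `X` -/
theorem ser_auxX (hX : ∀ n : ℕ, {α : R | α ∈ X ∧ absNorm (span {α}) = n}.Finite)
    (hu : H220.Unram R l) {b : Ideal R} (hb : b ≠ ⊥) (g : R → M) (hg : ∀ α, α ∉ X → g α = 0)
    (n : ℕ) :
    H220.A b g (l * n) + H220.chi R l •
        (∑ᶠ α ∈ {α : R | α ∈ b * span {(l : R)} ∧ absNorm (span {α}) = l * n * absNorm b}, g α)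
      = ∑ p ∈ H220.Pl R l, H220.A (b * p) g n := by
  classical
  have hb0 : absNorm b ≠ 0 := by rwa [Ne, absNorm_eq_zero_iff]
  have hR : ∀ p ∈ H220.Pl R l, H220.A (b * p) g n
      = ∑ α ∈ (hX (l * n * absNorm b)).toFinset, if α ∈ b * p then g α else 0 := by
    intro p hp
    rw [H220.mem_Pl] at hp
    rw [← sum_shellX hX (b * p) g hg (l * n * absNorm b), H220.A, map_mul, hp,
      show n * (absNorm b * l) = l * n * absNorm b by ring]
  rw [Finset.sum_congr rfl hR, H220.A, sum_shellX hX _ g hg, sum_shellX hX _ g hg,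
    Finset.sum_comm, Finset.smul_sum, ← Finset.sum_add_distrib]
  refine Finset.sum_congr rfl fun α hα => ?_
  have hα' : absNorm (span {α}) = l * n * absNorm b := by
    rw [Set.Finite.mem_toFinset] at hα
    exact hα.2
  by_cases h : α ∈ b
  · obtain ⟨a, ha⟩ := Ideal.dvd_span_singleton.mpr h
    have hna : l ∣ absNorm a := by
      rw [ha, map_mul, mul_comm (l * n)] at hα'
      rw [Nat.eq_of_mul_eq_mul_left (Nat.pos_of_ne_zero hb0) hα']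
      exact dvd_mul_right l n
    have hc := H220.card_dvd h2 hl hu hna
    have h1 : (∑ p ∈ H220.Pl R l, if α ∈ b * p then g α else 0)
        = (((H220.Pl R l).filter (· ∣ a)).card : ℤ) • g α := by
      rw [Finset.sum_congr rfl fun p _ => by rw [if_congr (H220.mem_mul_iff_dvd hb ha) rfl rfl],
        ← Finset.sum_filter, Finset.sum_const, natCast_zsmul]
    rw [h1, hc, if_pos h, if_congr (H220.mem_mul_iff_dvd hb ha) rfl rfl, add_smul, one_smul,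
      mul_smul, ite_smul, one_smul, zero_smul]
  · have h' : ∀ p : Ideal R, α ∉ b * p := fun p hp =>
      h ((Ideal.dvd_iff_le.mp (dvd_mul_right b p)) hp)
    rw [if_neg h, if_neg (h' _), smul_zero, add_zero]
    exact (Finset.sum_eq_zero fun p _ => if_neg (h' p)).symm

/-- helper220's `ser_T` for functions supported on `X` -/
theorem ser_TX (hX : ∀ n : ℕ, {α : R | α ∈ X ∧ absNorm (span {α}) = n}.Finite)
    (hu : H220.Unram R l) {b : Ideal R} (hb : b ≠ ⊥) (g : R → M) (hg : ∀ α, α ∉ X → g α = 0)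
    (n : ℕ) :
    H220.A b g (l * n) + H220.chi R l •
        (if l ∣ n then H220.A b (fun α => g ((l : R) * α)) (n / l) else 0)
      = ∑ p ∈ H220.Pl R l, H220.A (b * p) g n := by
  rw [← ser_auxX h2 hl hX hu hb g hg n]
  congr 2
  have hb0 : absNorm b ≠ 0 := by rwa [Ne, absNorm_eq_zero_iff]
  split_ifs with h
  · obtain ⟨m, rfl⟩ := h
    rw [Nat.mul_div_cancel_left _ hl.pos, H220.A, H220.sum_l h2 hl b g (m * absNorm b)]
    ring
  · symm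
    apply finsum_mem_eq_zero_of_forall_eq_zero
    rintro α ⟨hα, hα'⟩
    exfalso
    apply h
    rw [mul_comm, Ideal.mem_span_singleton_mul] at hα
    obtain ⟨β, hβ, rfl⟩ := hα
    rw [H220.norm_l_mul h2] at hα'
    obtain ⟨c, hc⟩ : absNorm b ∣ absNorm (span {β}) :=
      map_dvd absNorm (Ideal.dvd_span_singleton.mpr hβ)
    refine ⟨c, ?_⟩
    rw [hc] at hα'
    have h3 : (l * absNorm b) * (l * c) = (l * absNorm b) * n := by
      linarith [hα']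
    exact (Nat.eq_of_mul_eq_mul_left (Nat.mul_pos hl.pos (Nat.pos_of_ne_zero hb0)) h3).symm

end Shell

/-! ### the coefficient system of a theta series -/

section Theta

variable {K : Type} [Field K] [NumberField K] {M : Type} [AddCommGroup M]

/-- `ω(δ) ∑_(α ∈ 𝔟, N α = n N 𝔟) g(δ α)` -/
def bT (ω : ℕ → ℤ) (𝔟 : Ideal (𝓞 K)) (g : 𝓞 K → M) (n δ : ℕ) : M :=
  ω δ • ∑ᶠ α ∈ {α : 𝓞 K | α ∈ 𝔟 ∧ absNorm (span {α}) = n * absNorm 𝔟}, g ((δ : 𝓞 K) * α)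

theorem bT_eq (ω : ℕ → ℤ) (𝔟 : Ideal (𝓞 K)) (g : 𝓞 K → M) (n δ : ℕ) :
    bT ω 𝔟 g n δ = ω δ • H220.A 𝔟 (fun α => g ((δ : 𝓞 K) * α)) n := rfl

/-- the data: the index set `X` has finite norm shells, is stable under division by integers, `g`
is supported on `X`, `ω` is a character with values `χ`, and the primes `ℓ ∤ 2N` decompose
according to `χ` -/
structure Dat (N : ℕ) (χ ω : ℕ → ℤ) (X : Set (𝓞 K)) (g : 𝓞 K → M) : Prop where
  two : Module.finrank ℤ (𝓞 K) = 2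
  fin : ∀ n : ℕ, {α : 𝓞 K | α ∈ X ∧ absNorm (span {α}) = n}.Finite
  div : ∀ (δ : ℕ) (α : 𝓞 K), (δ : 𝓞 K) * α ∈ X → α ∈ X
  sup : ∀ α, α ∉ X → g α = 0
  mul : ∀ (ℓ : PA N) (δ : ℕ), ω (ℓ.1 * δ) = χ ℓ.1 * ω δ
  chi : ∀ ℓ : PA N, H220.chi (𝓞 K) ℓ.1 = χ ℓ.1 ∧ H220.Unram (𝓞 K) ℓ.1

variable {N : ℕ} {χ ω : ℕ → ℤ} {X : Set (𝓞 K)} {g : 𝓞 K → M}

theorem Pl_eq (ℓ : ℕ) : H220.Pl (𝓞 K) ℓ =
    (Ideal.finite_setOfPred_absNorm_eq (S := 𝓞 K) ℓ).toFinset := rfl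

theorem T_bT (H : Dat N χ ω X g) (ℓ : PA N) {𝔟 : Ideal (𝓞 K)} (h𝔟 : 𝔟 ≠ ⊥) :
    fT M ℓ.1 (bT ω 𝔟 g) = ∑ 𝔭 ∈ H220.Pl (𝓞 K) ℓ.1, bT ω (𝔟 * 𝔭) g := by
  funext n δ
  obtain ⟨h1, h3⟩ := H.chi ℓ
  have h4 := ser_TX H.two ℓ.2.1 H.fin h3 h𝔟 (fun α => g ((δ : 𝓞 K) * α))
    (fun α hα => H.sup _ fun h => hα (H.div δ α h)) n
  rw [Finset.sum_apply, Finset.sum_apply]
  simp only [bT_eq]
  rw [← Finset.smul_sum, ← h4, h1, smul_add]
  change ω δ • H220.A 𝔟 (fun α => g ((δ : 𝓞 K) * α)) (ℓ.1 * n) +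
    (if ℓ.1 ∣ n then ω (ℓ.1 * δ) • H220.A 𝔟 (fun α => g (((ℓ.1 * δ : ℕ) : 𝓞 K) * α)) (n / ℓ.1)
      else 0) = _
  congr 1
  split_ifs with h
  · rw [H.mul ℓ δ, mul_comm (χ ℓ.1), mul_smul]
    congr 2
    refine congrArg (fun u => H220.A 𝔟 u (n / ℓ.1)) ?_
    funext α
    refine congrArg g ?_
    push_cast
    ring
  · rw [smul_zero, smul_zero]

theorem S_bT (H : Dat N χ ω X g) (ℓ : PA N) (𝔟 : Ideal (𝓞 K)) :
    fS M ℓ.1 (bT ω 𝔟 g) = χ ℓ.1 • bT ω (𝔟 * span {(ℓ.1 : 𝓞 K)}) g := by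
  funext n δ
  change bT ω 𝔟 g n (ℓ.1 * δ) = χ ℓ.1 • bT ω (𝔟 * span {(ℓ.1 : 𝓞 K)}) g n δ
  rw [bT_eq, bT_eq, ← H220.ser_S H.two ℓ.2.1 𝔟 _ n, H.mul ℓ δ, mul_smul]
  congr 2
  refine congrArg (fun u => H220.A 𝔟 u n) ?_
  funext α
  refine congrArg g ?_
  push_cast
  ring

theorem ne_bot_of_norm {ℓ : ℕ} (hℓ : ℓ ≠ 0) {𝔭 : Ideal (𝓞 K)} (h : absNorm 𝔭 = ℓ) : 𝔭 ≠ ⊥ := by
  rintro rfl
  rw [Ideal.absNorm_bot] at h
  exact hℓ h.symm

theorem Ev_congr {I M : Type} [AddCommGroup M] {φ φ' : I → M} (x : MonoidAlgebra ℤ I)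
    (h : ∀ a, x.coeff a ≠ 0 → φ a = φ' a) : Ev φ x = Ev φ' x := by
  rw [Ev_apply, Ev_apply]
  refine Finset.sum_congr rfl fun a ha => ?_
  rw [Finsupp.mem_support_iff] at ha
  change x.coeff a • φ a = x.coeff a • φ' a
  rw [h a ha]

open Classical in
/-- (ii) the action of a polynomial on the coefficient system of a theta series -/
theorem Wd_bT (H : Dat N χ ω X g) (P : FreeAlgebra ℤ (Gen N)) {𝔟 : Ideal (𝓞 K)} (h𝔟 : 𝔟 ≠ ⊥) :
    Wd M N P (bT ω 𝔟 g) = Ev (fun 𝔞 => bT ω (𝔟 * 𝔞) g) (Lam K N χ P) := by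
  have key : ∀ (s : Gen N) (𝔞 : Ideal (𝓞 K)),
      fG M N s (if 𝔞 = ⊥ then 0 else bT ω 𝔞 g) =
      Ev (fun 𝔠 => if 𝔞 * 𝔠 = ⊥ then 0 else bT ω (𝔞 * 𝔠) g) (Lam K N χ (FreeAlgebra.ι ℤ s)) := by
    intro s 𝔞
    by_cases h𝔞 : 𝔞 = ⊥
    · rw [if_pos h𝔞, map_zero]
      have h1 : (fun 𝔠 => if 𝔞 * 𝔠 = ⊥ then 0 else bT ω (𝔞 * 𝔠) g) = fun _ => 0 := by
        funext 𝔠
        exact if_pos (by rw [h𝔞, Ideal.bot_mul])
      rw [h1, Ev_apply]
      exact (Finset.sum_eq_zero fun _ _ => smul_zero _).symm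
    · rw [if_neg h𝔞, Lam, FreeAlgebra.lift_ι_apply]
      rcases s with ℓ | ℓ
      · rw [Sum.elim_inl, frobSum_eq ℓ.1, map_sum]
        simp only [Ev_single, one_smul]
        change fT M ℓ.1 (bT ω 𝔞 g) = _
        rw [T_bT H ℓ h𝔞, Pl_eq]
        refine Finset.sum_congr rfl fun 𝔭 h𝔭 => ?_
        rw [Set.Finite.mem_toFinset] at h𝔭
        have h5 : 𝔞 * 𝔭 ≠ ⊥ := mul_ne_zero h𝔞 (ne_bot_of_norm ℓ.2.1.ne_zero h𝔭)
        exact (if_neg h5).symm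
      · rw [Sum.elim_inr, Ev_single]
        change fS M ℓ.1 (bT ω 𝔞 g) = _
        rw [S_bT H ℓ 𝔞, if_neg]
        refine mul_ne_zero h𝔞 ?_
        rw [Ne, Ideal.zero_eq_bot, Ideal.span_singleton_eq_bot]
        exact_mod_cast ℓ.2.1.ne_zero
  have h1 := inter_gen (fG M N) (fun 𝔞 => if 𝔞 = ⊥ then 0 else bT ω 𝔞 g) key P
    (MonoidAlgebra.single 𝔟 1)
  rw [Ev_single, one_smul, if_neg h𝔟, Ev_single_mul, one_smul] at h1
  rw [Wd, h1]
  refine Ev_congr _ fun 𝔞 h𝔞 => if_neg (mul_ne_zero h𝔟 ?_)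
  rintro rfl
  exact h𝔞 (Lam_bot N χ P)

/-- (iii) the pairing of `Lit2` is the coefficient at `(1, 1)` -/
theorem pair_eq (H : Dat N χ ω X g) (hω : ω 1 = 1) (P : FreeAlgebra ℤ (Gen N))
    {𝔟 : Ideal (𝓞 K)} (h𝔟 : 𝔟 ≠ ⊥) :
    pair g 𝔟 (Lam K N χ P) = Wd M N P (bT ω 𝔟 g) 1 1 := by
  rw [Wd_bT H P h𝔟]
  have h1 : Ev (fun 𝔞 => bT ω (𝔟 * 𝔞) g) (Lam K N χ P) 1 1 =
      Ev (fun 𝔞 => bT ω (𝔟 * 𝔞) g 1 1) (Lam K N χ P) :=
    Ev_map ((Pi.evalAddMonoidHom (fun _ : ℕ => M) 1).comp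
      (Pi.evalAddMonoidHom (fun _ : ℕ => ℕ → M) 1)) _ _
  rw [h1]
  change Ev (fun 𝔞 => ∑ᶠ α ∈ {α : 𝓞 K | Ideal.span {α} = 𝔟 * 𝔞}, g α) (Lam K N χ P) = _
  refine Ev_congr _ fun 𝔞 h𝔞 => ?_
  have h𝔠 : 𝔟 * 𝔞 ≠ ⊥ := by
    refine mul_ne_zero h𝔟 ?_
    rintro rfl
    exact h𝔞 (Lam_bot N χ P)
  rw [bT, hω, one_smul]
  have hset : {α : 𝓞 K | α ∈ 𝔟 * 𝔞 ∧ absNorm (span {α}) = 1 * absNorm (𝔟 * 𝔞)} =
      {α : 𝓞 K | Ideal.span {α} = 𝔟 * 𝔞} := by
    ext α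
    constructor
    · rintro ⟨h3, h4⟩
      rw [one_mul] at h4
      refine (H220.eq_of_dvd_of_norm (Ideal.dvd_span_singleton.mpr h3) h4.symm ?_).symm
      rw [h4, Ne, absNorm_eq_zero_iff]
      exact h𝔠
    · intro h3
      have h3' : Ideal.span {α} = 𝔟 * 𝔞 := h3
      refine ⟨?_, ?_⟩
      · rw [← h3']
        exact Ideal.mem_span_singleton_self α
      · rw [h3', one_mul]
  rw [hset]
  refine finsum_mem_congr rfl fun α _ => ?_
  rw [Nat.cast_one, one_mul]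

end Theta

end Vale.Agent.P022.H761
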