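import Vale.Agent.P022.H220.Uni
import Vale.Agent.P022.H220.Shell
import Vale.Agent.P022.H724.JacU
import Vale.Agent.P022.H761.Fhm

/-!
P022: the bridge from `Fhm` to the calculus of `H220/Uni`, and the data of `Fhm` for imaginary and
real quadratic fields.
-/

open scoped NumberField
open Ideal NumberField

noncomputable section

namespace Vale.Agent.P022.H761

/-! ### the two normalisations -/

theorem wd_bridge {N : ℕ} (P : FreeAlgebra ℤ (Gen N)) (c : ℕ → ℕ → ℂ) :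
    H220.Wd N P (fun n d : ℕ => (d : ℂ) * c n d) = fun n d : ℕ => (d : ℂ) * Wd ℂ N P c n d := by
  induction P using FreeAlgebra.induction generalizing c with
  | grade0 r =>
    rw [AlgHom.commutes, AlgHom.commutes, Module.algebraMap_end_apply,
      Module.algebraMap_end_apply]
    funext n d
    simp only [Pi.smul_apply, zsmul_eq_mul]
    ring
  | grade1 s =>
    rw [H220.Wd, Wd, FreeAlgebra.lift_ι_apply, FreeAlgebra.lift_ι_apply]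
    funext n d
    rcases s with ℓ | ℓ
    · have hℓ0 : (ℓ.1 : ℂ) ≠ 0 := by exact_mod_cast ℓ.2.1.ne_zero
      rw [Sum.elim_inl, H220.UT_apply]
      change _ = (d : ℂ) * (c (ℓ.1 * n) d + if ℓ.1 ∣ n then c (n / ℓ.1) (ℓ.1 * d) else 0)
      split_ifs
      · push_cast
        field_simp
      · ring
    · have hℓ0 : (ℓ.1 : ℂ) ≠ 0 := by exact_mod_cast ℓ.2.1.ne_zero
      rw [Sum.elim_inr, H220.US_apply]
      change _ = (d : ℂ) * c n (ℓ.1 * d)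
      push_cast
      field_simp
  | mul a b ha hb =>
    rw [map_mul, map_mul, Module.End.mul_apply, Module.End.mul_apply, hb, ha]
  | add a b ha hb =>
    rw [map_add, map_add, LinearMap.add_apply, LinearMap.add_apply, ha, hb]
    funext n d
    simp only [Pi.add_apply]
    ring

section

variable {K : Type} [Field K] [NumberField K] {N : ℕ} {χ ω : ℕ → ℤ} {X : Set (𝓞 K)}
  {g : 𝓞 K → ℂ}

/-- the pairing in the letters of `H220/Uni` -/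
theorem pair_wd (H : Dat N χ ω X g) (hω : ω 1 = 1) (P : FreeAlgebra ℤ (Gen N))
    {𝔟 : Ideal (𝓞 K)} (h𝔟 : 𝔟 ≠ ⊥) :
    pair g 𝔟 (Lam K N χ P) = H220.Wd N P (fun n d : ℕ => (d : ℂ) * bT ω 𝔟 g n d) 1 1 := by
  rw [wd_bridge, pair_eq H hω P h𝔟]
  change _ = ((1 : ℕ) : ℂ) * Wd ℂ N P (bT ω 𝔟 g) 1 1
  rw [Nat.cast_one, one_mul]

/-- **the vanishing step**: if the coefficient system of the theta series is congruent mod `A` to a
combination (arbitrary complex coefficients) of those of forms of weights killed by `P`, then the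
pairing is in `A` -/
theorem pair_mem [NeZero N] (H : Dat N χ ω X g) (hω : ω 1 = 1) {A : AddSubgroup ℂ}
    (hA : ∀ ℓ : PA N, ∀ a ∈ A, (ℓ.1 : ℂ)⁻¹ * a ∈ A) {J : Type} [Fintype J]
    (i : J → ℕ) (G : ∀ j, MF N (i j + 1)) (b : J → ℂ) (cG : J → ℕ → ℕ → ℂ)
    (hG : ∀ j, H220.IsC N (i j + 1) (G j) (cG j)) {𝔟 : Ideal (𝓞 K)} (h𝔟 : 𝔟 ≠ ⊥)
    (hc : ∀ n d, Nat.Coprime d (2 * N) → (d : ℂ) * bT ω 𝔟 g n d - ∑ j, b j * cG j n d ∈ A)
    (P : FreeAlgebra ℤ (Gen N)) (hP : ∀ j, FreeAlgebra.lift ℤ (fun s => gHk N s (i j)) P = 0) :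
    pair g 𝔟 (Lam K N χ P) ∈ A := by
  rw [pair_wd H hω P h𝔟]
  exact H220.kill hA i G b cG hG hc P hP 1 1 (Nat.coprime_one_left _)

end

/-! ### the quadratic character of any quadratic field -/

section Quad

variable {K : Type} [Field K] [NumberField K] [Algebra.IsQuadraticExtension ℚ K]

theorem chi_quad {ℓ : ℕ} (hℓ : ℓ.Prime) (h2 : ℓ ≠ 2) (hd : ¬ (ℓ : ℤ) ∣ discr K) :
    H220.chi (𝓞 K) ℓ = jacobiSym (discr K) ℓ ∧ H220.Unram (𝓞 K) ℓ := by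
  have : Fact ℓ.Prime := ⟨hℓ⟩
  obtain ⟨B⟩ := H724.exists_qb (K := K) (Algebra.IsQuadraticExtension.finrank_eq_two ℚ K)
  refine ⟨?_, fun p hp => B.sq_ne h2 hd p hp⟩
  have h1 := B.ncard_norm_eq h2 hd
  have h3 : {p : Ideal (𝓞 K) | absNorm p = ℓ} =
      ((H220.Pl (𝓞 K) ℓ : Finset (Ideal (𝓞 K))) : Set _) := by
    ext p
    simp
  rw [h3, Set.ncard_coe_finset, jacobiSym.legendreSym.to_jacobiSym] at h1
  unfold H220.chi
  rw [h1]
  ring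

/-- the common part of the data -/
theorem dat_of {N : ℕ} {χ ω : ℕ → ℤ} {M : Type} [AddCommGroup M] {X : Set (𝓞 K)} {g : 𝓞 K → M}
    (fin : ∀ n : ℕ, {α : 𝓞 K | α ∈ X ∧ absNorm (span {α}) = n}.Finite)
    (div : ∀ (δ : ℕ) (α : 𝓞 K), (δ : 𝓞 K) * α ∈ X → α ∈ X) (sup : ∀ α, α ∉ X → g α = 0)
    (hN : ∀ ℓ : PA N, ¬ (ℓ.1 : ℤ) ∣ discr K)
    (hχ : ∀ ℓ : PA N, χ ℓ.1 = jacobiSym (discr K) ℓ.1)
    (hω : ∀ (ℓ : PA N) (δ : ℕ), ω (ℓ.1 * δ) = χ ℓ.1 * ω δ) : Dat N χ ω X g where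
  two := H724.finrank_int_two
  fin := fin
  div := div
  sup := sup
  mul := hω
  chi ℓ := by
    have h2 : ℓ.1 ≠ 2 := fun h => ℓ.2.2 (by rw [h]; exact dvd_mul_right 2 N)
    obtain ⟨h3, h4⟩ := chi_quad ℓ.2.1 h2 (hN ℓ)
    exact ⟨h3.trans (hχ ℓ).symm, h4⟩

/-- the data for an imaginary quadratic field, `X = ⊤` -/
theorem dat_imag [IsTotallyComplex K] {N : ℕ} {χ ω : ℕ → ℤ} {M : Type} [AddCommGroup M]
    (g : 𝓞 K → M) (hN : ∀ ℓ : PA N, ¬ (ℓ.1 : ℤ) ∣ discr K)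
    (hχ : ∀ ℓ : PA N, χ ℓ.1 = jacobiSym (discr K) ℓ.1)
    (hω : ∀ (ℓ : PA N) (δ : ℕ), ω (ℓ.1 * δ) = χ ℓ.1 * ω δ) : Dat N χ ω Set.univ g := by
  refine dat_of ?_ (fun _ _ _ => Set.mem_univ _) (fun α h => absurd (Set.mem_univ α) h) hN hχ hω
  intro n
  have h := H220.finShell_imag (K := K) (Algebra.IsQuadraticExtension.finrank_eq_two ℚ K)
    inferInstance n
  refine h.subset ?_
  rintro α ⟨-, hα⟩
  exact hα

/-! ### real quadratic fields -/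

/-- the fundamental domain of a unit with eigenvalue `u` on the elements of positive norm -/
def FDK (σ₁ σ₂ : K →+* ℝ) (u : ℝ) : Set (𝓞 K) :=
  {α | 0 < σ₁ (α : K) * σ₂ (α : K) ∧ |σ₂ (α : K)| ≤ |σ₁ (α : K)| ∧
    |σ₁ (α : K)| < u ^ 2 * |σ₂ (α : K)|}

/-- a complex embedding of a real quadratic field is one of the two real ones -/
theorem emb_eq {σ₁ σ₂ : K →+* ℝ} (h : σ₁ ≠ σ₂) (φ : K →+* ℂ) :
    φ = Complex.ofRealHom.comp σ₁ ∨ φ = Complex.ofRealHom.comp σ₂ := by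
  classical
  have hinj : Function.Injective (Complex.ofRealHom : ℝ →+* ℂ) := Complex.ofReal_injective
  have hne : Complex.ofRealHom.comp σ₁ ≠ Complex.ofRealHom.comp σ₂ := by
    intro h1
    refine h (RingHom.ext fun x => hinj ?_)
    exact congrArg (fun f : K →+* ℂ => f x) h1
  have hcard : Fintype.card (K →+* ℂ) = 2 := by
    rw [Embeddings.card, Algebra.IsQuadraticExtension.finrank_eq_two ℚ K]
  have h2 : ({Complex.ofRealHom.comp σ₁, Complex.ofRealHom.comp σ₂} : Finset (K →+* ℂ)) =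
      Finset.univ := by
    refine Finset.eq_univ_of_card _ ?_
    rw [Finset.card_pair hne, hcard]
  have h3 := Finset.mem_univ φ
  rw [← h2, Finset.mem_insert, Finset.mem_singleton] at h3
  exact h3

/-- the norm is the product of the two real embeddings -/
theorem norm_eq {σ₁ σ₂ : K →+* ℝ} (h : σ₁ ≠ σ₂) (x : K) :
    ((Algebra.norm ℚ x : ℚ) : ℝ) = σ₁ x * σ₂ x := by
  classical
  have hinj : Function.Injective (Complex.ofRealHom : ℝ →+* ℂ) := Complex.ofReal_injective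
  have hne : Complex.ofRealHom.comp σ₁ ≠ Complex.ofRealHom.comp σ₂ := by
    intro h1
    refine h (RingHom.ext fun x => hinj ?_)
    exact congrArg (fun f : K →+* ℂ => f x) h1
  have h1 := Algebra.norm_eq_prod_embeddings ℚ ℂ x
  have h2 : ∏ σ : K →ₐ[ℚ] ℂ, σ x = ∏ φ : K →+* ℂ, φ x :=
    Fintype.prod_equiv (RingHom.equivRatAlgHom (R := K) (S := ℂ)).symm _ _ fun _ => rfl
  have h3 : (Finset.univ : Finset (K →+* ℂ)) =
      {Complex.ofRealHom.comp σ₁, Complex.ofRealHom.comp σ₂} := by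
    ext φ
    simp only [Finset.mem_univ, Finset.mem_insert, Finset.mem_singleton, true_iff]
    exact emb_eq h φ
  rw [h2, h3, Finset.prod_pair hne] at h1
  have h4 : (((Algebra.norm ℚ x : ℚ) : ℝ) : ℂ) = ((σ₁ x * σ₂ x : ℝ) : ℂ) := by
    rw [Complex.ofReal_mul]
    have h5 : algebraMap ℚ ℂ (Algebra.norm ℚ x) = (((Algebra.norm ℚ x : ℚ) : ℝ) : ℂ) := by
      simp
    rw [← h5, h1]
    rfl
  exact_mod_cast h4

theorem absNorm_eq {σ₁ σ₂ : K →+* ℝ} (h : σ₁ ≠ σ₂) (α : 𝓞 K) :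
    (absNorm (span {α}) : ℝ) = |σ₁ (α : K) * σ₂ (α : K)| := by
  rw [← norm_eq h, absNorm_span_singleton, ← Algebra.coe_norm_int, Nat.cast_natAbs]
  push_cast
  rfl

/-- the norm shells of the fundamental domain are finite -/
theorem fin_FDK {σ₁ σ₂ : K →+* ℝ} (h : σ₁ ≠ σ₂) (u : ℝ) (n : ℕ) :
    {α : 𝓞 K | α ∈ FDK σ₁ σ₂ u ∧ absNorm (span {α}) = n}.Finite := by
  have hf := Embeddings.finite_of_norm_le K ℂ ((1 + u ^ 2) * (1 + n) : ℝ)
  have hi : Function.Injective (fun α : 𝓞 K => (α : K)) := RingOfIntegers.coe_injective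
  refine (hf.preimage hi.injOn).subset ?_
  rintro α ⟨⟨-, h2, h3⟩, hα⟩
  have hn : |σ₁ (α : K)| * |σ₂ (α : K)| = n := by
    rw [← abs_mul, ← absNorm_eq h, hα]
  have hn0 : (0 : ℝ) ≤ n := Nat.cast_nonneg n
  have b2 : |σ₂ (α : K)| ^ 2 ≤ n := by
    nlinarith [abs_nonneg (σ₂ (α : K)), abs_nonneg (σ₁ (α : K))]
  have b1 : |σ₁ (α : K)| ^ 2 ≤ u ^ 2 * n := by
    nlinarith [abs_nonneg (σ₂ (α : K)), abs_nonneg (σ₁ (α : K))]
  have hu : 0 ≤ u ^ 2 := sq_nonneg u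
  have hun : 0 ≤ u ^ 2 * n := mul_nonneg hu hn0
  refine ⟨α.isIntegral_coe, fun φ => ?_⟩
  rcases emb_eq h φ with rfl | rfl
  · have e : ‖(Complex.ofRealHom.comp σ₁) (α : K)‖ = |σ₁ (α : K)| :=
      Complex.norm_real _
    rw [e]
    nlinarith [abs_nonneg (σ₁ (α : K)), sq_nonneg (|σ₁ (α : K)| - 1)]
  · have e : ‖(Complex.ofRealHom.comp σ₂) (α : K)‖ = |σ₂ (α : K)| :=
      Complex.norm_real _
    rw [e]
    nlinarith [abs_nonneg (σ₂ (α : K)), sq_nonneg (|σ₂ (α : K)| - 1)]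

omit [NumberField K] [Algebra.IsQuadraticExtension ℚ K] in
theorem smul_FDK {σ₁ σ₂ : K →+* ℝ} {u : ℝ} {δ : ℕ} (hδ : δ ≠ 0) (α : 𝓞 K) :
    (δ : 𝓞 K) * α ∈ FDK σ₁ σ₂ u ↔ α ∈ FDK σ₁ σ₂ u := by
  have hδ' : (0 : ℝ) < δ := by exact_mod_cast Nat.pos_of_ne_zero hδ
  have e1 : σ₁ (((δ : 𝓞 K) * α : 𝓞 K) : K) = δ * σ₁ (α : K) := by simp
  have e2 : σ₂ (((δ : 𝓞 K) * α : 𝓞 K) : K) = δ * σ₂ (α : K) := by simp
  simp only [FDK, Set.mem_ofPred_eq, e1, e2, abs_mul, abs_of_pos hδ']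
  have a1 : (δ : ℝ) * σ₁ (α : K) * (δ * σ₂ (α : K)) =
      (δ : ℝ) ^ 2 * (σ₁ (α : K) * σ₂ (α : K)) := by ring
  have a2 : u ^ 2 * ((δ : ℝ) * |σ₂ (α : K)|) = δ * (u ^ 2 * |σ₂ (α : K)|) := by ring
  rw [a1, a2, mul_pos_iff_of_pos_left (pow_pos hδ' 2), mul_le_mul_iff_right₀ hδ',
    mul_lt_mul_iff_right₀ hδ']

omit [NumberField K] [Algebra.IsQuadraticExtension ℚ K] in
theorem div_FDK {σ₁ σ₂ : K →+* ℝ} {u : ℝ} (δ : ℕ) (α : 𝓞 K)
    (h : (δ : 𝓞 K) * α ∈ FDK σ₁ σ₂ u) : α ∈ FDK σ₁ σ₂ u := by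
  rcases eq_or_ne δ 0 with rfl | hδ
  · exfalso
    have h1 := h.1
    simp at h1
  · exact (smul_FDK hδ α).1 h

/-- the data for a real quadratic field, `X` the fundamental domain -/
theorem dat_real {σ₁ σ₂ : K →+* ℝ} (h : σ₁ ≠ σ₂) (u : ℝ) {N : ℕ} {χ ω : ℕ → ℤ} {M : Type}
    [AddCommGroup M] (g : 𝓞 K → M) (hg : ∀ α, α ∉ FDK σ₁ σ₂ u → g α = 0)
    (hN : ∀ ℓ : PA N, ¬ (ℓ.1 : ℤ) ∣ discr K)
    (hχ : ∀ ℓ : PA N, χ ℓ.1 = jacobiSym (discr K) ℓ.1)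
    (hω : ∀ (ℓ : PA N) (δ : ℕ), ω (ℓ.1 * δ) = χ ℓ.1 * ω δ) :
    Dat N χ ω (FDK σ₁ σ₂ u) g :=
  dat_of (fin_FDK h u) div_FDK hg hN hχ hω

end Quad

end Vale.Agent.P022.H761
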