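import Vale.Agent.P022.H527.Rmft
import Vale.Agent.P022.H626.Fdk
import Vale.Agent.P022.H626.Rib
import Vale.Agent.P022.H477.Cusp
import Vale.Agent.P022.H443.RunfL
import Vale.Agent.P022.H352.Law
import Vale.Agent.P022.H118.Rpo
import Vale.Agent.P022.H353.Wd
import Vale.Agent.P022.H431.A
import Vale.Agent.P022.H889.Rex
import Vale.Agent.P022.H761.Brd

/-!
P022 [RTHF]: Hecke's theta series of weight one attached to an ideal of a real quadratic field.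
-/

open scoped ModularForm MatrixGroups Manifold NumberField Real
open UpperHalfPlane hiding I
open Matrix CongruenceSubgroup Ideal NumberField Complex

noncomputable section

namespace Vale.Agent.P022.H761

open Vale.Agent.P022 Vale.Agent.P022.H352 Vale.Agent.P022.H477 Vale.Agent.P022.H353

variable {K : Type} [Field K] [NumberField K] [Algebra.IsQuadraticExtension ℚ K]

/-- `f(α) sgn(σ₁ α)` on the fundamental domain -/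
def gR (σ₁ σ₂ : K →+* ℝ) (u : ℝ) (f : 𝓞 K → ℂ) : 𝓞 K → ℂ :=
  (FDK σ₁ σ₂ u).indicator fun α => f α * ((SignType.sign (σ₁ (α : K)) : ℤ) : ℂ)

omit [NumberField K] [Algebra.IsQuadraticExtension ℚ K] in
theorem gR_off {σ₁ σ₂ : K →+* ℝ} {u : ℝ} {f : 𝓞 K → ℂ} (α : 𝓞 K) (h : α ∉ FDK σ₁ σ₂ u) :
    gR σ₁ σ₂ u f α = 0 := Set.indicator_of_notMem h _

/-- the theta series of the ideal `𝔟` -/
def hI (σ₁ σ₂ : K →+* ℝ) (u : ℝ) (𝔟 : Ideal (𝓞 K)) (f : 𝓞 K → ℂ) (τ : ℍ) : ℂ :=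
  ∑' α : 𝔟, gR σ₁ σ₂ u f α * cexp (2 * π * I *
    ((absNorm (span {(α : 𝓞 K)}) : ℂ) / absNorm 𝔟) * (τ : ℂ))

omit [NumberField K] [Algebra.IsQuadraticExtension ℚ K] in
theorem gR_smul {σ₁ σ₂ : K →+* ℝ} {u : ℝ} {f : 𝓞 K → ℂ} {δ : ℕ} (hδ : δ ≠ 0) (α : 𝓞 K) :
    gR σ₁ σ₂ u f (δ * α) = gR σ₁ σ₂ u (fun α => f (δ * α)) α := by
  have hδ' : (0 : ℝ) < δ := by exact_mod_cast Nat.pos_of_ne_zero hδ
  by_cases h : α ∈ FDK σ₁ σ₂ u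
  · have h1 := (smul_FDK hδ α).2 h
    have e1 : σ₁ (((δ : 𝓞 K) * α : 𝓞 K) : K) = δ * σ₁ (α : K) := by simp
    rw [gR, gR, Set.indicator_of_mem h, Set.indicator_of_mem h1, e1, sign_mul, sign_pos hδ',
      one_mul]
  · rw [gR_off α h, gR_off _ fun h1 => h ((smul_FDK hδ α).1 h1)]

/-! ### coordinates -/

section Coord

variable {σ₁ σ₂ : K →+* ℝ} {u : ℝ} {𝔟 : Ideal (𝓞 K)} {a b c : ℤ} {D : ℕ}
  {φ : (ℤ × ℤ) ≃+ 𝔟} {ρ : ℝ}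

theorem term_eq (hne : σ₁ ≠ σ₂) (h𝔟 : 𝔟 ≠ ⊥) (hρ : 0 < ρ)
    (h : ∀ v, σ₁ (φ v : 𝓞 K) = ρ * e1 a b D v ∧ σ₂ (φ v : 𝓞 K) = ρ * e2 a b D v ∧
        Algebra.norm ℤ (φ v : 𝓞 K) = Qf a b c v * absNorm 𝔟) (f : 𝓞 K → ℂ) (τ : ℍ) (v : ℤ × ℤ) :
    gR σ₁ σ₂ u f (φ v : 𝓞 K) * cexp (2 * π * I *
      ((absNorm (span {(φ v : 𝓞 K)}) : ℂ) / absNorm 𝔟) * (τ : ℂ)) =
    hC a b c D u 1 (fun v => f (φ v)) v * cexp (2 * π * I * ((1 * Qf a b c v : ℤ) : ℂ) * τ) := by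
  have hN : (absNorm 𝔟 : ℂ) ≠ 0 := by
    rw [Nat.cast_ne_zero, Ne, absNorm_eq_zero_iff]
    exact h𝔟
  have hNz : (0 : ℤ) < absNorm 𝔟 := by
    exact_mod_cast Nat.pos_of_ne_zero (fun h => h𝔟 (absNorm_eq_zero_iff.mp h))
  obtain ⟨h1, h2, h3⟩ := h v
  have hmem : (φ v : 𝓞 K) ∈ FDK σ₁ σ₂ u ↔ v ∈ FD a b c D u 1 := by
    rw [H626.mem_FD_iff h𝔟 hρ h 1 v,
      H626.mem_FDK_one (Algebra.IsQuadraticExtension.finrank_eq_two ℚ K) hne]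
    simp only [FDK, Set.mem_ofPred_eq]
    tauto
  by_cases hv : v ∈ FD a b c D u 1
  · rw [gR, hC, Set.indicator_of_mem (hmem.2 hv), Set.indicator_of_mem hv, h1, sign_mul,
      sign_pos hρ, one_mul]
    congr 2
    have h4 : (0 : ℤ) < Qf a b c v := by
      have := hv.1
      rwa [one_mul] at this
    have h5 : (absNorm (span {(φ v : 𝓞 K)}) : ℤ) = Qf a b c v * absNorm 𝔟 := by
      rw [absNorm_span_singleton, Int.natCast_natAbs, h3, abs_of_pos (mul_pos h4 hNz)]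
    have h6 : (absNorm (span {(φ v : 𝓞 K)}) : ℂ) = (Qf a b c v : ℂ) * absNorm 𝔟 := by
      exact_mod_cast congrArg (fun z : ℤ => (z : ℂ)) h5
    rw [h6, one_mul]
    field_simp
  · rw [gR, hC, Set.indicator_of_notMem (fun h => hv (hmem.1 h)), Set.indicator_of_notMem hv,
      zero_mul, zero_mul]

theorem hI_eq (hne : σ₁ ≠ σ₂) (h𝔟 : 𝔟 ≠ ⊥) (hρ : 0 < ρ)
    (h : ∀ v, σ₁ (φ v : 𝓞 K) = ρ * e1 a b D v ∧ σ₂ (φ v : 𝓞 K) = ρ * e2 a b D v ∧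
        Algebra.norm ℤ (φ v : 𝓞 K) = Qf a b c v * absNorm 𝔟) (f : 𝓞 K → ℂ) :
    hI σ₁ σ₂ u 𝔟 f = H527.H a b c D u 1 (fun v => f (φ v)) := by
  funext τ
  rw [hI, H527.H, hR, ← Equiv.tsum_eq φ.toEquiv]
  exact tsum_congr fun v => term_eq hne h𝔟 hρ h f τ v

omit [NumberField K] [Algebra.IsQuadraticExtension ℚ K] in
theorem per_phi {M : ℕ} {f : 𝓞 K → ℂ} (hf : PerO M f) : Per M (fun v => f (φ v : 𝓞 K)) := by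
  intro v w
  show f (φ (v + (M : ℤ) • w) : 𝓞 K) = f (φ v : 𝓞 K)
  have e : (φ (v + (M : ℤ) • w) : 𝓞 K) = (φ v : 𝓞 K) + (M : 𝓞 K) * (φ w : 𝓞 K) := by
    rw [map_add, map_zsmul]
    push_cast
    simp
  rw [e, hf]

omit [NumberField K] [Algebra.IsQuadraticExtension ℚ K] in
theorem phi_smul (d : ℤ) (v : ℤ × ℤ) : (φ (d • v) : 𝓞 K) = (d : 𝓞 K) * (φ v : 𝓞 K) := by
  rw [map_zsmul]
  push_cast
  simp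

omit [Algebra.IsQuadraticExtension ℚ K] in
theorem unt_of {ε : (𝓞 K)ˣ} (hu : 1 < σ₁ ((ε : 𝓞 K) : K))
    (h12 : σ₁ ((ε : 𝓞 K) : K) * σ₂ ((ε : 𝓞 K) : K) = 1) (hρ : 0 < ρ)
    (h : ∀ v, σ₁ (φ v : 𝓞 K) = ρ * e1 a b D v ∧ σ₂ (φ v : 𝓞 K) = ρ * e2 a b D v ∧
        Algebra.norm ℤ (φ v : 𝓞 K) = Qf a b c v * absNorm 𝔟)
    {A : (ℤ × ℤ) ≃+ (ℤ × ℤ)} (hA : ∀ v, (φ (A v) : 𝓞 K) = (ε : 𝓞 K) * (φ v : 𝓞 K)) :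
    Unt a b D (σ₁ ((ε : 𝓞 K) : K)) A where
  one_lt := hu
  h1 v := by
    have h1 := (h (A v)).1
    rw [hA] at h1
    have h2 := (h v).1
    have e : σ₁ (((ε : 𝓞 K) * (φ v : 𝓞 K) : 𝓞 K) : K) =
        σ₁ ((ε : 𝓞 K) : K) * σ₁ ((φ v : 𝓞 K) : K) := by
      push_cast
      exact map_mul _ _ _
    rw [e, h2] at h1
    have h3 : ρ * (σ₁ ((ε : 𝓞 K) : K) * e1 a b D v) = ρ * e1 a b D (A v) := by
      linear_combination h1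
    exact (mul_left_cancel₀ hρ.ne' h3).symm
  h2 v := by
    have h1 := (h (A v)).2.1
    rw [hA] at h1
    have h2 := (h v).2.1
    have e : σ₂ (((ε : 𝓞 K) * (φ v : 𝓞 K) : 𝓞 K) : K) =
        σ₂ ((ε : 𝓞 K) : K) * σ₂ ((φ v : 𝓞 K) : K) := by
      push_cast
      exact map_mul _ _ _
    have hinv : σ₂ ((ε : 𝓞 K) : K) = (σ₁ ((ε : 𝓞 K) : K))⁻¹ := by
      have h0 : (0 : ℝ) < σ₁ ((ε : 𝓞 K) : K) := by linarith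
      field_simp
      linarith
    rw [e, h2, hinv] at h1
    have h3 : ρ * ((σ₁ ((ε : 𝓞 K) : K))⁻¹ * e2 a b D v) = ρ * e2 a b D (A v) := by
      linear_combination h1
    exact (mul_left_cancel₀ hρ.ne' h3).symm

end Coord

/-! ### the statements -/

/-- the data of this file: a real quadratic field with its two embeddings, discriminant
`D = 2 ^ e D₁`, a unit `ε` with `σ₁ ε = u > 1`, `σ₂ ε = u⁻¹` -/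
structure RD (K : Type) [Field K] [NumberField K] (σ₁ σ₂ : K →+* ℝ) (D₁ e : ℕ) (ε : (𝓞 K)ˣ) :
    Prop where
  ne : σ₁ ≠ σ₂
  disc : discr K = ((D₁ * 2 ^ e : ℕ) : ℤ)
  odd : Odd D₁
  one_lt : 1 < σ₁ ((ε : 𝓞 K) : K)
  inv : σ₁ ((ε : 𝓞 K) : K) * σ₂ ((ε : 𝓞 K) : K) = 1

variable {σ₁ σ₂ : K →+* ℝ} {D₁ e : ℕ} {ε : (𝓞 K)ˣ}

/-- everything in coordinates -/
theorem RD.coord (H : RD K σ₁ σ₂ D₁ e ε) {𝔟 : Ideal (𝓞 K)} (h𝔟 : 𝔟 ≠ ⊥) :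
    ∃ (a b c : ℤ) (φ : (ℤ × ℤ) ≃+ 𝔟) (A : (ℤ × ℤ) ≃+ (ℤ × ℤ)), 0 < a ∧
      b ^ 2 - 4 * a * c = ((2 ^ e * D₁ : ℕ) : ℤ) ∧ ¬ IsSquare (2 ^ e * D₁) ∧
      Unt a b (2 ^ e * D₁) (σ₁ ((ε : 𝓞 K) : K)) A ∧
      (∀ v, (φ (A v) : 𝓞 K) = (ε : 𝓞 K) * (φ v : 𝓞 K)) ∧
      (∀ f : 𝓞 K → ℂ, hI σ₁ σ₂ (σ₁ ((ε : 𝓞 K) : K)) 𝔟 f =
        H527.H a b c (2 ^ e * D₁) (σ₁ ((ε : 𝓞 K) : K)) 1 (fun v => f (φ v))) ∧
      (∀ (f : 𝓞 K → ℂ) (τ : ℍ) (v : ℤ × ℤ),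
        gR σ₁ σ₂ (σ₁ ((ε : 𝓞 K) : K)) f (φ v : 𝓞 K) * cexp (2 * π * I *
          ((absNorm (span {(φ v : 𝓞 K)}) : ℂ) / absNorm 𝔟) * (τ : ℂ)) =
        hC a b c (2 ^ e * D₁) (σ₁ ((ε : 𝓞 K) : K)) 1 (fun v => f (φ v)) v *
          cexp (2 * π * I * ((1 * Qf a b c v : ℤ) : ℂ) * τ)) := by
  have h2 := Algebra.IsQuadraticExtension.finrank_eq_two ℚ K
  have hD : discr K = ((2 ^ e * D₁ : ℕ) : ℤ) := by rw [H.disc, mul_comm]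
  obtain ⟨a, b, c, φ, ρ, ha, hd, hρ, -, h⟩ := H626.rib h2 (2 ^ e * D₁) hD σ₁ σ₂ H.ne 𝔟 h𝔟
  obtain ⟨A, hA⟩ := H626.unit_act 𝔟 φ ε
  refine ⟨a, b, c, φ, A, ha, hd, ?_, unt_of H.one_lt H.inv hρ h hA, hA,
    fun f => hI_eq H.ne h𝔟 hρ h f, fun f τ v => term_eq H.ne h𝔟 hρ h f τ v⟩
  rintro ⟨r, hr⟩
  refine H626.not_sq (K := K) h2 ⟨(r : ℤ), ?_⟩
  rw [hD, hr]
  push_cast
  rfl

omit [NumberField K] [Algebra.IsQuadraticExtension ℚ K] in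
theorem inv_phi {𝔟 : Ideal (𝓞 K)} {φ : (ℤ × ℤ) ≃+ 𝔟} {A : (ℤ × ℤ) ≃+ (ℤ × ℤ)}
    (hA : ∀ v, (φ (A v) : 𝓞 K) = (ε : 𝓞 K) * (φ v : 𝓞 K)) {f : 𝓞 K → ℂ}
    (hf : ∀ α, f (ε * α) = f α) (v : ℤ × ℤ) : f (φ (A v) : 𝓞 K) = f (φ v : 𝓞 K) := by
  rw [hA, hf]

/-- (2) holomorphy -/
theorem RD.mdiff (H : RD K σ₁ σ₂ D₁ e ε) {𝔟 : Ideal (𝓞 K)} (h𝔟 : 𝔟 ≠ ⊥) {M : ℕ} (hM : 0 < M)
    {f : 𝓞 K → ℂ} (hf : PerO M f) :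
    MDifferentiable 𝓘(ℂ) 𝓘(ℂ) (hI σ₁ σ₂ (σ₁ ((ε : 𝓞 K) : K)) 𝔟 f) := by
  obtain ⟨a, b, c, φ, A, ha, hd, hsq, hu, hA, hh, -⟩ := H.coord h𝔟
  rw [hh f]
  have h1 := H477.mdiff_HR (s := 1) ha hsq hd (σ₁ ((ε : 𝓞 K) : K)) (Or.inl rfl) one_pos hM
    (per_phi (φ := φ) hf)
  have h2 : H477.HR a b c (2 ^ e * D₁) (σ₁ ((ε : 𝓞 K) : K)) 1 1 (fun v => f (φ v)) =
      H527.H a b c (2 ^ e * D₁) (σ₁ ((ε : 𝓞 K) : K)) 1 (fun v => f (φ v)) := by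
    funext τ
    rw [H477.HR, H527.H, Rat.cast_one, one_mul]
  rw [← h2]
  exact h1

/-- (3) the law under `Γ₀(D M²)` -/
theorem RD.law (H : RD K σ₁ σ₂ D₁ e ε) {𝔟 : Ideal (𝓞 K)} (h𝔟 : 𝔟 ≠ ⊥) {M : ℕ} (hM : 0 < M)
    {f : 𝓞 K → ℂ} (hf : PerO M f) (hε : ∀ α, f (ε * α) = f α) (γ : SL(2, ℤ))
    (hγ : ((D₁ * 2 ^ e * M ^ 2 : ℕ) : ℤ) ∣ γ 1 0) :
    hI σ₁ σ₂ (σ₁ ((ε : 𝓞 K) : K)) 𝔟 f ∣[(1 : ℤ)] γ = fun τ => krP e D₁ (γ 1 1) *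
      hI σ₁ σ₂ (σ₁ ((ε : 𝓞 K) : K)) 𝔟 (fun α => f ((γ 1 1 : ℤ) * α)) τ := by
  obtain ⟨a, b, c, φ, A, ha, hd, hsq, hu, hA, hh, -⟩ := H.coord h𝔟
  funext τ
  rw [hh f, hh (fun α => f ((γ 1 1 : ℤ) * α)),
    H527.slash_law (H352.RLAW1 H118.RPO) H443.RUNF ha rfl H.odd hsq hd hu hM
      (per_phi (φ := φ) hf) (inv_phi hA hε) (Or.inl rfl) γ (by rwa [mul_comm (2 ^ e) D₁]) τ]
  congr 2
  funext v
  rw [phi_smul]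

/-- (4) all slashes have expansions with bounded powers of two in the denominators -/
theorem RD.ex (H : RD K σ₁ σ₂ D₁ e ε) {𝔟 : Ideal (𝓞 K)} (h𝔟 : 𝔟 ≠ ⊥) {M : ℕ} (hM : 0 < M)
    {f : 𝓞 K → ℂ} (hf : PerO M f) (hε : ∀ α, f (ε * α) = f α) (hi : ∀ α, IsIntegral ℤ (f α))
    {O : Subring ℂ} (hO1 : ∀ x : ℂ, IsIntegral ℤ x → x ∈ O)
    (hO2 : ∀ n : ℕ, Odd n → (n : ℂ)⁻¹ ∈ O) :
    ∃ R : ℕ, 0 < R ∧ ∃ B : ℕ, ∀ γ : SL(2, ℤ), H220.Ex (H645.two O (-(B : ℤ))) R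
      (hI σ₁ σ₂ (σ₁ ((ε : 𝓞 K) : K)) 𝔟 f ∣[(1 : ℤ)] γ) := by
  obtain ⟨a, b, c, φ, A, ha, hd, hsq, hu, hA, hh, -⟩ := H.coord h𝔟
  have hD1 : D₁ ≠ 0 := by
    rintro rfl
    exact absurd H.odd (by decide)
  have : NeZero (2 ^ e * D₁ * M ^ 2) := ⟨by positivity⟩
  obtain ⟨R, hR, B, hB⟩ := H889.rex_unif H118.RPO H443.RUNF ha hsq hd hu (s := 1) (Or.inl rfl) hM
    (per_phi (φ := φ) hf) (inv_phi hA hε) (fun v => hi _) hO1 hO2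
    (Gamma1 (2 ^ e * D₁ * M ^ 2)) (fun δ hδ => H527.inv_law (H352.RLAW1 H118.RPO) H443.RUNF ha
      rfl H.odd hsq hd hu hM (per_phi (φ := φ) hf) (inv_phi hA hε) (Or.inl rfl) δ hδ)
  refine ⟨R, hR, B, fun γ => ?_⟩
  rw [hh f]
  exact (hB γ).mono (H431.dn_le_two O B)

/-! ### the expansion -/

/-- (1) the coefficients -/
theorem RD.hs (H : RD K σ₁ σ₂ D₁ e ε) {𝔟 : Ideal (𝓞 K)} (h𝔟 : 𝔟 ≠ ⊥) {M : ℕ} (hM : 0 < M)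
    {f : 𝓞 K → ℂ} (hf : PerO M f) :
    Hs (hI σ₁ σ₂ (σ₁ ((ε : 𝓞 K) : K)) 𝔟 f) (fun n =>
      ∑ᶠ α ∈ {α : 𝓞 K | α ∈ 𝔟 ∧ absNorm (span {α}) = n * absNorm 𝔟},
        gR σ₁ σ₂ (σ₁ ((ε : 𝓞 K) : K)) f α) := by
  classical
  obtain ⟨a, b, c, φ, A, ha, hd, hsq, hu, hA, hh, ht⟩ := H.coord h𝔟
  intro τ
  have hN : 0 < absNorm 𝔟 := Nat.pos_of_ne_zero fun h => h𝔟 (absNorm_eq_zero_iff.1 h)
  have hNc : (absNorm 𝔟 : ℂ) ≠ 0 := by exact_mod_cast hN.ne'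
  set u : ℝ := σ₁ ((ε : 𝓞 K) : K) with hu'
  set F : 𝔟 → ℂ := fun α => gR σ₁ σ₂ u f α * cexp (2 * π * I *
    ((absNorm (span {(α : 𝓞 K)}) : ℂ) / absNorm 𝔟) * (τ : ℂ)) with hF
  have hsum : Summable F := by
    have h1 := H477.summable_hR (s := 1) ha hsq hd u (Or.inl rfl) hM (per_phi (φ := φ) hf)
      τ.im_pos
    rw [← φ.toEquiv.summable_iff]
    exact h1.congr fun v => (ht f τ v).symm
  have hHS : HasSum F (hI σ₁ σ₂ u 𝔟 f τ) := hsum.hasSum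
  set idx : 𝔟 → ℕ := fun α => absNorm (span {(α : 𝓞 K)}) / absNorm 𝔟 with hidx
  have hdiv : ∀ α : 𝔟, absNorm (span {(α : 𝓞 K)}) = idx α * absNorm 𝔟 := fun α =>
    (Nat.div_mul_cancel (map_dvd absNorm (Ideal.dvd_span_singleton.mpr α.2))).symm
  have h2 := hHS.tsum_fiberwise idx
  refine H220.hs_congr' h2 fun n => ?_
  have h3 : ∀ α : (idx ⁻¹' {n}), F α = gR σ₁ σ₂ u f (α : 𝔟) *
      cexp (2 * π * I * n * (τ : ℂ) / (1 : ℕ)) := by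
    intro α
    have h4 : idx α = n := α.2
    rw [hF]
    dsimp only
    rw [hdiv (α : 𝔟), h4]
    congr 2
    push_cast
    field_simp
  rw [tsum_congr h3, tsum_mul_right]
  congr 1
  -- the sum over the fibre
  have hfin := fin_FDK H.ne u (n * absNorm 𝔟)
  have e1 : ∑' α : (idx ⁻¹' {n}), gR σ₁ σ₂ u f ((α : 𝔟) : 𝓞 K) =
      ∑ᶠ α : (idx ⁻¹' {n}), gR σ₁ σ₂ u f ((α : 𝔟) : 𝓞 K) := by
    refine tsum_eq_finsum ?_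
    have inj : Function.Injective (fun α : (idx ⁻¹' {n}) => (((α : 𝔟) : 𝓞 K))) :=
      Subtype.val_injective.comp Subtype.val_injective
    refine (hfin.preimage inj.injOn).subset ?_
    intro α hα
    have h4 : idx α = n := α.2
    refine ⟨?_, ?_⟩
    · by_contra h5
      exact hα (gR_off _ h5)
    · rw [hdiv (α : 𝔟), h4]
  have e2 : ∑ᶠ α : (idx ⁻¹' {n}), gR σ₁ σ₂ u f ((α : 𝔟) : 𝓞 K) =
      ∑ᶠ α ∈ idx ⁻¹' {n}, gR σ₁ σ₂ u f ((α : 𝔟) : 𝓞 K) :=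
    finsum_set_coe_eq_finsum_mem (f := fun α : 𝔟 => gR σ₁ σ₂ u f (α : 𝓞 K)) (idx ⁻¹' {n})
  rw [e1, e2]
  symm
  refine finsum_mem_eq_of_bijOn (fun α : 𝔟 => (α : 𝓞 K)) ⟨?_, ?_, ?_⟩ fun α _ => rfl
  · intro α hα
    have h1 : idx α = n := hα
    exact ⟨α.2, by rw [hdiv α, h1]⟩
  · exact Subtype.val_injective.injOn
  · rintro x ⟨hx, hx2⟩
    refine ⟨⟨x, hx⟩, ?_, rfl⟩
    show idx ⟨x, hx⟩ = n
    have h5 := hdiv ⟨x, hx⟩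
    rw [hx2] at h5
    exact (Nat.eq_of_mul_eq_mul_right hN h5).symm

/-- **the coefficient system of the theta series is `bT`** -/
theorem RD.hs_slash (H : RD K σ₁ σ₂ D₁ e ε) {𝔟 : Ideal (𝓞 K)} (h𝔟 : 𝔟 ≠ ⊥) {M : ℕ} (hM : 0 < M)
    {f : 𝓞 K → ℂ} (hf : PerO M f) (hε : ∀ α, f (ε * α) = f α) {ω : ℕ → ℤ} {δ : ℕ} (hδ : δ ≠ 0)
    (hω : ω δ = krP e D₁ δ) (γ : SL(2, ℤ)) (hγ : ((D₁ * 2 ^ e * M ^ 2 : ℕ) : ℤ) ∣ γ 1 0)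
    (hγ1 : γ 1 1 = δ) :
    Hs (hI σ₁ σ₂ (σ₁ ((ε : 𝓞 K) : K)) 𝔟 f ∣[(1 : ℤ)] γ)
      (fun n => bT ω 𝔟 (gR σ₁ σ₂ (σ₁ ((ε : 𝓞 K) : K)) f) n δ) := by
  rw [H.law h𝔟 hM hf hε γ hγ, hγ1]
  have hf' : PerO M (fun α => f (((δ : ℤ) : 𝓞 K) * α)) := by
    intro α β
    show f (((δ : ℤ) : 𝓞 K) * (α + M * β)) = f (((δ : ℤ) : 𝓞 K) * α)
    rw [← hf (((δ : ℤ) : 𝓞 K) * α) (((δ : ℤ) : 𝓞 K) * β)]
    congr 1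
    ring
  refine Hs.congr ((H.hs h𝔟 hM hf').smul (krP e D₁ δ : ℂ)) (fun τ => rfl) fun n => ?_
  rw [bT, hω, zsmul_eq_mul]
  congr 1
  refine finsum_mem_congr rfl fun α _ => ?_
  rw [gR_smul hδ]
  push_cast
  rfl

end Vale.Agent.P022.H761
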