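import Vale.Agent.P022.H472.Lit

/-!
P022, block [GAUSS] (helper761): the quadratic Gauss sum `G1 a b c d C` for all `d`, from `d = 1`:
Galois conjugation (`ζ ↦ ζ ^ ℓ` keeps `G ^ 2`), Frobenius modulo `ℓ`, Dirichlet, reciprocity.
-/

set_option linter.all false

open Polynomial

noncomputable section

namespace Vale.Agent.P022.H761

/-- the root of unity -/
def zt (C : ℕ) : ℂ := Complex.exp (-(2 * Real.pi * Complex.I / C))

theorem zt_prim {C : ℕ} (hC : C ≠ 0) : IsPrimitiveRoot (zt C) C := by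
  have h := (Complex.isPrimitiveRoot_exp C hC).inv
  rw [← Complex.exp_neg] at h
  exact h

theorem exp_eq {C : ℕ} (k : ℤ) :
    Complex.exp (-(2 * Real.pi * Complex.I * (k : ℂ) / C)) = zt C ^ k := by
  rw [zt, ← Complex.exp_int_mul]
  congr 1
  ring

/-- exponents -/
def ee (a b c : ℤ) (C : ℕ) (i j : Fin C) : ℕ := (Qf a b c ((i.1 : ℤ), (j.1 : ℤ)) % C).toNat

/-- the polynomial -/
def PP (a b c : ℤ) (C : ℕ) : ℤ[X] := ∑ i : Fin C, ∑ j : Fin C, (X : ℤ[X]) ^ ee a b c C i j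

theorem pow_ee {C : ℕ} (hC : C ≠ 0) {z : ℂ} (hz : z ^ C = 1) (q : ℤ) :
    z ^ q = z ^ (q % C).toNat := by
  have hz0 : z ≠ 0 := by
    rintro rfl
    rw [zero_pow hC] at hz
    exact zero_ne_one hz
  have h1 : ((q % C).toNat : ℤ) = q % C :=
    Int.toNat_of_nonneg (Int.emod_nonneg _ (by exact_mod_cast hC))
  have h2 : q = C * (q / C) + q % C := (Int.mul_ediv_add_emod q C).symm
  have h3 : z ^ q = z ^ ((C : ℤ) * (q / C) + q % C) := by rw [← h2]
  rw [h3, zpow_add₀ hz0, zpow_mul, zpow_natCast, hz, one_zpow, one_mul, ← zpow_natCast, h1]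

theorem aeval_PP {a b c : ℤ} {C : ℕ} (hC : C ≠ 0) (d : ℕ) :
    aeval (zt C ^ d) (PP a b c C) = G1 a b c d C := by
  rw [PP, G1, map_sum]
  refine Finset.sum_congr rfl fun i _ => ?_
  rw [map_sum]
  refine Finset.sum_congr rfl fun j _ => ?_
  rw [map_pow, aeval_X, exp_eq, zpow_mul, zpow_natCast, ee, ← pow_ee hC]
  rw [← pow_mul, mul_comm, pow_mul, (zt_prim hC).pow_eq_one, one_pow]

theorem G1_congr {a b c : ℤ} {C : ℕ} (hC : C ≠ 0) {d d' : ℤ} (h : (C : ℤ) ∣ d - d') :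
    G1 a b c d C = G1 a b c d' C := by
  rw [G1, G1]
  refine Finset.sum_congr rfl fun i _ => Finset.sum_congr rfl fun j _ => ?_
  rw [exp_eq, exp_eq]
  obtain ⟨k, hk⟩ := h
  have hd : d = d' + C * k := by linarith
  have hz0 : zt C ≠ 0 := Complex.exp_ne_zero _
  rw [hd, add_mul, zpow_add₀ hz0, mul_assoc, zpow_mul (zt C) (C : ℤ), zpow_natCast,
    (zt_prim hC).pow_eq_one, one_zpow, mul_one]

/-- Galois conjugation. -/
theorem sq_conj {a b c : ℤ} {C : ℕ} (hC : C ≠ 0) {N : ℤ} (h : G1 a b c 1 C ^ 2 = N) {l : ℕ}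
    (hl : l.Coprime C) : G1 a b c l C ^ 2 = N := by
  have h1 : aeval (zt C ^ l) (PP a b c C ^ 2 - (N : ℤ[X])) = 0 := by
    have h2 : aeval (zt C) (PP a b c C ^ 2 - (N : ℤ[X])) = 0 := by
      have h3 := aeval_PP (a := a) (b := b) (c := c) hC 1
      rw [pow_one] at h3
      rw [map_sub, map_pow, h3]
      push_cast
      rw [h, map_intCast, sub_self]
    have h4 : minpoly ℤ (zt C) ∣ PP a b c C ^ 2 - (N : ℤ[X]) :=
      minpoly.isIntegrallyClosed_dvd ((zt_prim hC).isIntegral (Nat.pos_of_ne_zero hC)) h2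
    rw [(zt_prim hC).minpoly_eq_pow_coprime hl] at h4
    obtain ⟨r, hr⟩ := h4
    rw [hr, map_mul, minpoly.aeval, zero_mul]
  rw [map_sub, map_pow, aeval_PP hC l, map_intCast, sub_eq_zero] at h1
  exact h1

/-- Frobenius modulo `ℓ`. -/
theorem frob (P : ℤ[X]) (l : ℕ) [Fact l.Prime] : ∃ R : ℤ[X], P ^ l - expand ℤ l P = (l : ℤ[X]) * R := by
  have h1 : (P ^ l - expand ℤ l P).map (Int.castRingHom (ZMod l)) = 0 := by
    rw [Polynomial.map_sub, Polynomial.map_pow, Polynomial.map_expand, ZMod.expand_card, sub_self]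
  have h2 : C (l : ℤ) ∣ P ^ l - expand ℤ l P := by
    rw [Polynomial.C_dvd_iff_dvd_coeff]
    intro i
    have h3 := congrArg (fun q => Polynomial.coeff q i) h1
    simp only [Polynomial.coeff_map, Polynomial.coeff_zero] at h3
    exact (ZMod.intCast_zmod_eq_zero_iff_dvd _ l).1 h3
  obtain ⟨R, hR⟩ := h2
  exact ⟨R, by rw [hR]; simp⟩

/-- The sign for a prime. -/
theorem sign_prime {a b c : ℤ} {C : ℕ} (hC : C ≠ 0) {N : ℤ} (hN : N ≠ 0)
    (h : G1 a b c 1 C ^ 2 = N) {l : ℕ} [hl : Fact l.Prime] (hlC : l.Coprime C) (h2 : l ≠ 2)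
    (hlN : ¬ (l : ℤ) ∣ N) : G1 a b c l C = legendreSym l N * G1 a b c 1 C := by
  have hodd : Odd l := hl.out.odd_of_ne_two h2
  set g := G1 a b c 1 C with hg
  set g' := G1 a b c l C with hg'
  have hsq : g' ^ 2 = g ^ 2 := by rw [h, sq_conj hC h hlC]
  have hg0 : g ≠ 0 := by
    rintro h0
    rw [h0] at h
    have : (N : ℂ) = 0 := by rw [← h]; ring
    exact hN (by exact_mod_cast this)
  -- the congruence
  obtain ⟨R, hR⟩ := frob (PP a b c C) l
  have e1 : g ^ l - g' = l * aeval (zt C) R := by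
    have h3 := congrArg (aeval (zt C)) hR
    rw [map_sub, map_pow, map_mul, expand_aeval, aeval_PP hC l, map_natCast] at h3
    have h4 := aeval_PP (a := a) (b := b) (c := c) hC 1
    rw [pow_one] at h4
    rw [h4] at h3
    push_cast at h3
    exact h3
  have key : ∀ ε : ℤ, g' = ε * g → (l : ℤ) ∣ N ^ ((l + 1) / 2) - ε * N := by
    intro ε hε
    have e2 : ((N ^ ((l + 1) / 2) - ε * N : ℤ) : ℂ) = l * (aeval (zt C) R * g) := by
      have h5 : g ^ (l + 1) = (N : ℂ) ^ ((l + 1) / 2) := by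
        rw [← h, ← pow_mul]
        congr 1
        obtain ⟨t, ht⟩ := hodd
        omega
      push_cast
      rw [← h5, ← h, ← mul_assoc, ← e1, hε]
      ring
    -- integrality
    have i1 : IsIntegral ℤ (aeval (zt C) R * g) := by
      have hz := (zt_prim hC).isIntegral (Nat.pos_of_ne_zero hC)
      have i2 : ∀ Q : ℤ[X], IsIntegral ℤ (aeval (zt C) Q) := fun Q => by
        have : aeval (zt C) Q ∈ Algebra.adjoin ℤ {zt C} := aeval_mem_adjoin_singleton ℤ (zt C)
        exact adjoin_le_integralClosure hz this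
      refine (i2 R).mul ?_
      have h4 := aeval_PP (a := a) (b := b) (c := c) hC 1
      rw [pow_one] at h4
      have h6 := i2 (PP a b c C)
      rw [h4] at h6
      exact_mod_cast h6
    have hl0 : (l : ℂ) ≠ 0 := by exact_mod_cast hl.out.ne_zero
    have e3 : aeval (zt C) R * g =
        algebraMap ℚ ℂ (((N ^ ((l + 1) / 2) - ε * N : ℤ) : ℚ) / l) := by
      rw [eq_comm, map_div₀]
      rw [div_eq_iff (by simpa using hl0)]
      rw [map_intCast, map_natCast, e2]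
      ring
    rw [e3] at i1
    have i3 : IsIntegral ℤ (((N ^ ((l + 1) / 2) - ε * N : ℤ) : ℚ) / l) :=
      (isIntegral_algebraMap_iff (algebraMap ℚ ℂ).injective).1 i1
    obtain ⟨y, hy⟩ := IsIntegrallyClosed.isIntegral_iff.1 i3
    refine ⟨y, ?_⟩
    have hl1 : (l : ℚ) ≠ 0 := by exact_mod_cast hl.out.ne_zero
    have h7 : ((N ^ ((l + 1) / 2) - ε * N : ℤ) : ℚ) = l * y := by
      rw [eq_comm, mul_comm]
      rw [← eq_div_iff hl1]
      simpa using hy
    exact_mod_cast h7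
  -- conclusion
  have key2 : ∀ ε : ℤ, (ε = 1 ∨ ε = -1) → g' = ε * g → legendreSym l N = ε := by
    intro ε hε1 hε
    have h8 := key ε hε
    have h9 : (l : ℤ) ∣ N * (N ^ (l / 2) - ε) := by
      have e4 : N ^ ((l + 1) / 2) - ε * N = N * (N ^ (l / 2) - ε) := by
        obtain ⟨t, ht⟩ := hodd
        have e5 : (l + 1) / 2 = l / 2 + 1 := by omega
        rw [e5, pow_succ]; ring
      rwa [e4] at h8
    have h10 : (l : ℤ) ∣ N ^ (l / 2) - ε :=
      ((Nat.prime_iff_prime_int.1 hl.out).dvd_or_dvd h9).resolve_left hlN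
    have h11 : ((legendreSym l N : ℤ) : ZMod l) = (ε : ZMod l) := by
      rw [legendreSym.eq_pow]
      have := (ZMod.intCast_zmod_eq_zero_iff_dvd _ l).2 h10
      push_cast at this
      exact sub_eq_zero.1 this
    have h12 : (l : ℤ) ∣ legendreSym l N - ε := by
      rw [← ZMod.intCast_zmod_eq_zero_iff_dvd]
      push_cast
      rw [h11, sub_self]
    have h13 : legendreSym l N = 1 ∨ legendreSym l N = -1 :=
      legendreSym.eq_one_or_neg_one l (fun h0 => hlN ((ZMod.intCast_zmod_eq_zero_iff_dvd _ l).1 h0))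
    have h14 : 3 ≤ (l : ℤ) := by
      have := hl.out.two_le
      have : 3 ≤ l := by omega
      exact_mod_cast this
    rcases h13 with h13 | h13 <;> rcases hε1 with h15 | h15 <;> rw [h13, h15] at h12 ⊢
    · exfalso
      obtain ⟨k, hk⟩ := h12
      have hk' : (l : ℤ) * k = 2 := by linarith
      have : (l : ℤ) ∣ 2 := ⟨k, hk'.symm⟩
      have := Int.le_of_dvd (by norm_num) this
      linarith
    · exfalso
      obtain ⟨k, hk⟩ := h12
      have hk' : (l : ℤ) * (-k) = 2 := by linarith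
      have : (l : ℤ) ∣ 2 := ⟨-k, hk'.symm⟩
      have := Int.le_of_dvd (by norm_num) this
      linarith
  rcases sq_eq_sq_iff_eq_or_eq_neg.1 hsq with h3 | h3
  · rw [key2 1 (Or.inl rfl) (by rw [h3]; simp), h3]; simp
  · rw [key2 (-1) (Or.inr rfl) (by rw [h3]; simp), h3]; simp

/-- reciprocity for `D ≡ 3 mod 4` -/
theorem recip {D l : ℕ} [hl : Fact l.Prime] (h2 : l ≠ 2) (hD : D % 4 = 3) :
    legendreSym l (-(D : ℤ)) = jacobiSym (l : ℤ) D := by
  have hodd : Odd l := hl.out.odd_of_ne_two h2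
  rw [jacobiSym.legendreSym.to_jacobiSym, jacobiSym.neg _ hodd]
  have hl4 : l % 4 = 1 ∨ l % 4 = 3 := by
    obtain ⟨t, ht⟩ := hodd
    omega
  rcases hl4 with h | h
  · rw [ZMod.χ₄_nat_one_mod_four h, one_mul]
    have hDo : Odd D := by rw [Nat.odd_iff]; omega
    exact (jacobiSym.quadratic_reciprocity_one_mod_four h hDo).symm
  · rw [ZMod.χ₄_nat_three_mod_four h, jacobiSym.quadratic_reciprocity_three_mod_four hD h]
    ring

theorem mod4 {a b c : ℤ} {D : ℕ} (hD : Odd D) (hd : b ^ 2 - 4 * a * c = -(D : ℤ)) :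
    D % 4 = 3 := by
  have hb : Odd b := by
    by_contra hb
    rw [Int.not_odd_iff_even] at hb
    obtain ⟨t, rfl⟩ := hb
    obtain ⟨s, rfl⟩ := hD
    push_cast at hd
    have : (2 : ℤ) * (2 * t ^ 2 - 2 * a * c + s) = -1 := by linarith [hd, sq (t + t), sq t]
    omega
  obtain ⟨t, rfl⟩ := hb
  have : (D : ℤ) = 4 * (a * c - t ^ 2 - t - 1) + 3 := by linarith [hd, sq t]
  omega

/-- **[GAUSS]** -/
theorem GAUSS (h1 : GAUSS1Stmt) : GAUSSStmt := by
  intro a b c D ha hO hd C hC hDC d hdC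
  have hC0 : C ≠ 0 := hC.ne'
  haveI : NeZero C := ⟨hC0⟩
  have hD0 : 0 < D := hO.pos
  have hu : IsUnit ((d : ℤ) : ZMod C) := by
    obtain ⟨u, v, huv⟩ := hdC
    refine IsUnit.of_mul_eq_one (u : ZMod C) ?_
    have := congrArg (Int.cast : ℤ → ZMod C) huv
    push_cast at this
    rw [ZMod.natCast_self, mul_zero, add_zero, mul_comm] at this
    exact this
  obtain ⟨l, hl, hlp, hld⟩ := Nat.forall_exists_prime_gt_and_eq_mod hu (2 * C * D + 2)
  haveI : Fact l.Prime := ⟨hlp⟩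
  have hl2 : l ≠ 2 := by omega
  have hlC : l.Coprime C := by
    rw [Nat.Prime.coprime_iff_not_dvd hlp]
    intro h
    have := Nat.le_of_dvd hC h
    nlinarith
  have hlD : ¬ l ∣ D := by
    intro h
    have := Nat.le_of_dvd hD0 h
    nlinarith
  have hcg : (C : ℤ) ∣ d - l := by
    rw [← ZMod.intCast_zmod_eq_zero_iff_dvd]
    push_cast
    rw [hld, sub_self]
  have hG := h1 a b c D ha hD0 hd C hC hDC
  have hs : ((Real.sqrt D : ℝ) : ℂ) ^ 2 = D := by
    rw [← Complex.ofReal_pow, Real.sq_sqrt (Nat.cast_nonneg D)]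
    simp
  have hN : G1 a b c 1 C ^ 2 = ((-(D : ℤ) * (C : ℤ) ^ 2 : ℤ) : ℂ) := by
    rw [hG]
    push_cast
    calc (-Complex.I * C * (Real.sqrt D : ℂ)) ^ 2 =
        Complex.I ^ 2 * C ^ 2 * (Real.sqrt D : ℂ) ^ 2 := by ring
      _ = -(D : ℂ) * C ^ 2 := by rw [hs, Complex.I_sq]; ring
  have hN0 : (-(D : ℤ) * (C : ℤ) ^ 2) ≠ 0 := by
    have : (D : ℤ) ≠ 0 := by exact_mod_cast hD0.ne'
    have h3 : (C : ℤ) ≠ 0 := by exact_mod_cast hC0
    exact mul_ne_zero (neg_ne_zero.2 this) (pow_ne_zero 2 h3)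
  have hlC' : ¬ (l : ℤ) ∣ (C : ℤ) := by
    intro h
    exact (Nat.Prime.coprime_iff_not_dvd hlp).1 hlC (by exact_mod_cast h)
  have hlN : ¬ (l : ℤ) ∣ (-(D : ℤ) * (C : ℤ) ^ 2) := by
    intro h
    have hp := Nat.prime_iff_prime_int.1 hlp
    rcases hp.dvd_or_dvd h with h | h
    · exact hlD (by exact_mod_cast (dvd_neg.1 h))
    · exact hlC' (hp.dvd_of_dvd_pow h)
  have key := sign_prime hC0 hN0 hN hlC hl2 hlN
  have hleg : legendreSym l (-(D : ℤ) * (C : ℤ) ^ 2) = legendreSym l (-(D : ℤ)) := by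
    rw [legendreSym.mul, legendreSym.sq_one' l (fun h0 =>
      hlC' ((ZMod.intCast_zmod_eq_zero_iff_dvd _ l).1 h0)), mul_one]
  have hj : jacobiSym (l : ℤ) D = jacobiSym d D := by
    refine (jacobiSym.mod_left' ?_).symm
    have : (D : ℤ) ∣ d - l := (by exact_mod_cast hDC : (D : ℤ) ∣ C).trans hcg
    exact Int.emod_eq_emod_iff_emod_sub_eq_zero.2 (Int.emod_eq_zero_of_dvd this)
  rw [G1_congr hC0 hcg, key, hG, hleg, recip hl2 (mod4 hO hd), hj]
  ring

end Vale.Agent.P022.H761
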