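import Vale.Agent.P022.H761.Rthf
import Vale.Agent.P022.H353.LiftDer
import Vale.Agent.P022.H545.Main3
import Vale.Agent.P022.H547.Val

/-!
P022 [RVAN]: the functions `sgn(σ₁ α) f(α) N(α) ^ κ` of a real quadratic field are killed
`2`-adically by the Hecke polynomials which kill all small weights.
-/

open scoped ModularForm MatrixGroups Manifold NumberField Real
open UpperHalfPlane hiding I
open Matrix CongruenceSubgroup Ideal NumberField Complex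

noncomputable section

namespace Vale.Agent.P022.H761

open Vale.Agent.P022 Vale.Agent.P022.H352 Vale.Agent.P022.H353 Vale.Agent.P022.H645

/-! ### the character at two -/

/-- the part at two of the quadratic character -/
def ch2 (e D₁ : ℕ) (d : ℤ) : ℤ :=
  ZMod.χ₈ (d : ZMod 8) ^ e * (if D₁ % 4 = 3 then ZMod.χ₄ (d : ZMod 4) else 1)

theorem krP_split (e D₁ : ℕ) (d : ℤ) : krP e D₁ d = ch2 e D₁ d * jacobiSym d D₁ := rfl

theorem chr8_ch2 (e D₁ : ℕ) : H749.Chr8 (ch2 e D₁) where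
  pm d hd := by
    have h8 : ZMod.χ₈ (d : ZMod 8) = 1 ∨ ZMod.χ₈ (d : ZMod 8) = -1 := by
      have h1 : d % 8 = 1 ∨ d % 8 = 3 ∨ d % 8 = 5 ∨ d % 8 = 7 := by
        have := Int.odd_iff.1 hd
        omega
      have e : ((d % 8 : ℤ) : ZMod 8) = (d : ZMod 8) := by
        rw [← sub_eq_zero, ← Int.cast_sub]
        exact (ZMod.intCast_zmod_eq_zero_iff_dvd _ _).mpr (by push_cast; omega)
      rw [← e]
      rcases h1 with h | h | h | h <;> rw [h] <;> decide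
    have h4 : ZMod.χ₄ (d : ZMod 4) = 1 ∨ ZMod.χ₄ (d : ZMod 4) = -1 := by
      have h1 : d % 4 = 1 ∨ d % 4 = 3 := by
        have := Int.odd_iff.1 hd
        omega
      have e : ((d % 4 : ℤ) : ZMod 4) = (d : ZMod 4) := by
        rw [← sub_eq_zero, ← Int.cast_sub]
        exact (ZMod.intCast_zmod_eq_zero_iff_dvd _ _).mpr (by push_cast; omega)
      rw [← e]
      rcases h1 with h | h <;> rw [h] <;> decide
    have h8e : ZMod.χ₈ (d : ZMod 8) ^ e = 1 ∨ ZMod.χ₈ (d : ZMod 8) ^ e = -1 := by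
      rcases h8 with h | h
      · exact Or.inl (by rw [h, one_pow])
      · rw [h]
        exact neg_one_pow_eq_or ℤ e
    unfold ch2
    split_ifs
    · rcases h8e with h | h <;> rcases h4 with h' | h' <;> rw [h, h'] <;> decide
    · rcases h8e with h | h <;> rw [h] <;> decide
  per d := by
    have h8 : ((d + 8 : ℤ) : ZMod 8) = (d : ZMod 8) := by
      rw [← sub_eq_zero, ← Int.cast_sub]
      exact (ZMod.intCast_zmod_eq_zero_iff_dvd _ _).mpr ⟨1, by push_cast; ring⟩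
    have h4 : ((d + 8 : ℤ) : ZMod 4) = (d : ZMod 4) := by
      rw [← sub_eq_zero, ← Int.cast_sub]
      exact (ZMod.intCast_zmod_eq_zero_iff_dvd _ _).mpr ⟨2, by push_cast; ring⟩
    rw [ch2, h8, h4, ch2]
  mul d d' _ _ := by
    unfold ch2
    push_cast
    rw [map_mul, map_mul, mul_pow]
    split_ifs <;> ring

theorem krP_of_mod {e D₁ N : ℕ} (hN : D₁ ∣ N) {d : ℤ} (h : (N : ℤ) ∣ d - 1) :
    krP e D₁ d = ch2 e D₁ d := by
  have h0 : (D₁ : ℤ) ∣ d - 1 := Dvd.dvd.trans (by exact_mod_cast hN) h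
  rw [krP_split, jacobiSym.mod_left d D₁,
    Int.emod_eq_emod_iff_emod_sub_eq_zero.mpr (Int.emod_eq_zero_of_dvd h0),
    ← jacobiSym.mod_left, jacobiSym.one_left, mul_one]

/-! ### powers of the norm -/

section

variable {K : Type} [Field K] [NumberField K] [Algebra.IsQuadraticExtension ℚ K]

theorem bT_pow (ω : ℕ → ℤ) (𝔟 : Ideal (𝓞 K)) (g : 𝓞 K → ℂ) (κ n δ : ℕ) :
    bT ω 𝔟 (fun α => g α * (absNorm (span {α}) : ℂ) ^ κ) n δ =
      (absNorm 𝔟 : ℂ) ^ κ * (((δ : ℂ) ^ 2 * n) ^ κ * bT ω 𝔟 g n δ) := by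
  rw [bT, bT, zsmul_eq_mul, zsmul_eq_mul]
  have h1 : ∑ᶠ α ∈ {α : 𝓞 K | α ∈ 𝔟 ∧ absNorm (span {α}) = n * absNorm 𝔟},
      g ((δ : 𝓞 K) * α) * (absNorm (span {(δ : 𝓞 K) * α}) : ℂ) ^ κ =
      ∑ᶠ α ∈ {α : 𝓞 K | α ∈ 𝔟 ∧ absNorm (span {α}) = n * absNorm 𝔟},
        ((absNorm 𝔟 : ℂ) ^ κ * ((δ : ℂ) ^ 2 * n) ^ κ) * g ((δ : 𝓞 K) * α) := by
    refine finsum_mem_congr rfl fun α hα => ?_
    have h2 : absNorm (span {(δ : 𝓞 K) * α}) = δ ^ 2 * (n * absNorm 𝔟) := by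
      rw [← hα.2, absNorm_span_singleton, absNorm_span_singleton, map_mul, Int.natAbs_mul]
      congr 1
      have h3 := H749.norm_int_eq (K := K) (Algebra.IsQuadraticExtension.finrank_eq_two ℚ K)
        (δ : ℤ)
      push_cast at h3
      rw [h3, Int.natAbs_pow, Int.natAbs_natCast]
    rw [h2]
    push_cast
    ring
  rw [h1, ← mul_finsum_mem]
  ring

omit [Algebra.IsQuadraticExtension ℚ K] in
/-- the integer valued function in the letters of `Rthf` -/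
theorem GR_cast {σ₁ σ₂ : K →+* ℝ} {u : ℝ} (f : 𝓞 K → ℤ) (κ : ℕ) (α : 𝓞 K) :
    ((H545.GR σ₁ σ₂ u f κ α : ℤ) : ℂ) =
      gR σ₁ σ₂ u (fun α => (f α : ℂ)) α * (absNorm (span {α}) : ℂ) ^ κ := by
  have h0 : ((R.FR σ₁ σ₂ u f α : ℤ) : ℂ) = gR σ₁ σ₂ u (fun α => (f α : ℂ)) α := by
    by_cases h : α ∈ FDK σ₁ σ₂ u
    · rw [gR, Set.indicator_of_mem h]
      obtain ⟨h1, h2, h3⟩ := h
      rw [R.FR, if_pos ⟨h2, h3, h1⟩]
      split_ifs with h4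
      · rw [sign_pos h4]
        simp
      · have h5 : σ₁ (α : K) < 0 := by
          refine lt_of_le_of_ne (not_lt.1 h4) ?_
          intro h6
          rw [h6, zero_mul] at h1
          exact lt_irrefl _ h1
        rw [sign_neg h5]
        simp
    · rw [gR_off α h, R.FR, if_neg, Int.cast_zero]
      rintro ⟨h2, h3, h1⟩
      exact h ⟨h1, h2, h3⟩
  rw [H545.GR, ← h0]
  push_cast
  rfl

omit [Algebra.IsQuadraticExtension ℚ K] in
theorem hI_mul {σ₁ σ₂ : K →+* ℝ} {u : ℝ} (𝔟 : Ideal (𝓞 K)) (c : ℂ) (f : 𝓞 K → ℂ) (τ : ℍ) :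
    hI σ₁ σ₂ u 𝔟 (fun α => c * f α) τ = c * hI σ₁ σ₂ u 𝔟 f τ := by
  rw [hI, hI, ← tsum_mul_left]
  refine tsum_congr fun α => ?_
  have h1 : gR σ₁ σ₂ u (fun α => c * f α) (α : 𝓞 K) = c * gR σ₁ σ₂ u f (α : 𝓞 K) := by
    by_cases h : (α : 𝓞 K) ∈ FDK σ₁ σ₂ u
    · rw [gR, gR, Set.indicator_of_mem h, Set.indicator_of_mem h]
      ring
    · rw [gR_off _ h, gR_off _ h, mul_zero]
  rw [h1]
  ring

/-- **[RVAN]** -/
theorem rvan3 : H545.RVAN3Stmt := by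
  intro K _ _ _ D₁ e m σ₁ σ₂ hne hd hD₁ hm _ E _ _ _ ε₀ hu1 hu2 hu0
  refine ⟨ch2 e D₁, chr8_ch2 e D₁, ?_⟩
  rintro f ⟨⟨r, par, hper, hchi⟩, hun⟩ κ 𝔟 h𝔟 ε hε
  have H : RD K σ₁ σ₂ D₁ e ε₀ := ⟨hne, hd, hD₁, hu1, hu2⟩
  set u : ℝ := σ₁ ((ε₀ : 𝓞 K) : K) with hu
  -- the level
  set r' : ℕ := max r 1 with hr'
  set M : ℕ := 2 ^ r' * m with hM
  set s : ℕ := e + 2 * r' with hs
  set N : ℕ := D₁ * m ^ 2 with hN
  have hr1 : 1 ≤ r' := le_max_right _ _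
  have hrr : r ≤ r' := le_max_left _ _
  have hs2 : 2 ≤ s := by omega
  have hM0 : 0 < M := Nat.mul_pos (by positivity) hm.pos
  have hlev : D₁ * 2 ^ e * M ^ 2 = N * 2 ^ s := by
    rw [hM, hN, hs, pow_add, mul_pow, ← pow_mul, mul_comm 2 r']
    ring
  have hNodd : Odd N := hD₁.mul hm.pow
  -- the function
  set f' : 𝓞 K → ℂ := fun α => (f α : ℂ) with hf'
  have hper' : PerO M f' := by
    intro α β
    have h1 : (M : 𝓞 K) * β = ((2 ^ r * m : ℕ) : 𝓞 K) * (((2 ^ (r' - r) : ℕ) : 𝓞 K) * β) := by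
      rw [hM, ← mul_assoc, ← Nat.cast_mul]
      congr 2
      have h2 : 2 ^ r' = 2 ^ r * 2 ^ (r' - r) := by
        rw [← pow_add]
        congr 1
        omega
      rw [h2]
      ring
    rw [hf']
    dsimp only
    rw [h1]
    exact_mod_cast congrArg (fun z : ℤ => (z : ℂ)) (hper α _)
  have hun' : ∀ α, f' (ε₀ * α) = f' α := fun α => by
    rw [hf']
    dsimp only
    rw [hun ε₀ hu0 α]
  -- the valuation ring
  obtain ⟨O, hO, -, -, hOi, -, hOo, -, -⟩ := H547.val' (algebraMap ℚ ℂ)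
    ((algebraMap ℚ_[2] E).comp (algebraMap ℚ ℚ_[2]))
  obtain ⟨R, hR, B, hB⟩ := H.ex h𝔟 hM0 hper' hun' (fun α => (isIntegral_intCast (f α))) hOi hOo
  set F : ℍ → ℂ := hI σ₁ σ₂ u 𝔟 f' with hF
  have hgam : ∀ γ ∈ Gs N s, ((D₁ * 2 ^ e * M ^ 2 : ℕ) : ℤ) ∣ γ.1 1 0 := by
    intro γ hγ
    rw [hlev]
    have h1 : (N : ℤ) ∣ γ.1 1 0 := by
      have := ((Gamma1_mem N γ).1 hγ.1).2.2
      exact (ZMod.intCast_zmod_eq_zero_iff_dvd _ N).mp this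
    have h2 := dvd_of_gamma0 hγ.2
    have h3 : IsCoprime (N : ℤ) ((2 ^ s : ℕ) : ℤ) := by
      rw [Nat.isCoprime_iff_coprime]
      exact Nat.Coprime.pow_right s hNodd.coprime_two_right
    push_cast at h2 h3 ⊢
    exact h3.mul_dvd h1 h2
  have hlaw : ∀ γ ∈ Gs N s, F ∣[((0 + 1 : ℕ) : ℤ)] γ =
      fun τ => H431.om (γ.1 1 1) ^ par * F τ := by
    intro γ hγ
    have h1 := H.law h𝔟 hM0 hper' hun' γ (hgam γ hγ)
    have h4 : (4 : ℤ) ∣ γ.1 1 0 := by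
      refine Dvd.dvd.trans ?_ (dvd_of_gamma0 hγ.2)
      obtain ⟨t, ht⟩ := Nat.exists_eq_add_of_le hs2
      exact ⟨2 ^ t, by rw [ht]; push_cast; rw [pow_add]; norm_num⟩
    have hodd : Odd (γ.1 1 1) := H431.odd_of (H889.det_eq γ) h4
    have hN1 : (N : ℤ) ∣ γ.1 1 1 - 1 := by
      have h5 := ((Gamma1_mem N γ).1 hγ.1).2.1
      refine (ZMod.intCast_zmod_eq_zero_iff_dvd _ N).mp ?_
      push_cast
      exact sub_eq_zero.2 h5
    have h5 : (fun α => f' ((γ.1 1 1 : ℤ) * α)) = fun α =>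
        ((ch2 e D₁ (γ.1 1 1) : ℂ) * H431.om (γ.1 1 1) ^ par) * f' α := by
      funext α
      rw [hf']
      dsimp only
      rw [hchi _ hodd hN1 α]
      push_cast
      rfl
    rw [zero_add, Nat.cast_one, h1]
    funext τ
    change (krP e D₁ (γ.1 1 1) : ℂ) * hI σ₁ σ₂ u 𝔟 (fun α => f' ((γ.1 1 1 : ℤ) * α)) τ = _
    rw [h5, hI_mul, krP_of_mod (dvd_mul_right D₁ (m ^ 2)) hN1]
    have h6 : (ch2 e D₁ (γ.1 1 1) : ℂ) * (ch2 e D₁ (γ.1 1 1) : ℂ) = 1 := by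
      exact_mod_cast congrArg (fun z : ℤ => (z : ℂ)) ((chr8_ch2 e D₁).sq hodd)
    linear_combination H431.om (γ.1 1 1) ^ par * F τ * h6
  have key := rlift hOi hOo s 0 B R par hs2 hR F hlaw (fun γ => hB γ)
    (bT (fun δ => krP e D₁ δ) 𝔟 (gR σ₁ σ₂ u f')) (fun δ h => ?_) κ
  swap
  · have hδ0 : δ ≠ 0 := by
      rintro rfl
      have := cop_odd h
      simp at this
    refine Hs.congr (H.hs_slash h𝔟 hM0 hper' hun' (ω := fun δ => krP e D₁ δ) hδ0 rfl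
      (gd (N * 2 ^ s) δ (cop_s s h)) ?_ rfl) (fun τ => ?_) fun n => rfl
    · rw [hlev]
      exact dvd_refl _
    · rw [pow_zero, one_mul]
      rfl
  -- the coefficients of the theta series with the power of the norm
  have hGR : (fun α => ((H545.GR σ₁ σ₂ u f κ α : ℤ) : ℂ)) =
      fun α => gR σ₁ σ₂ u f' α * (absNorm (span {α}) : ℂ) ^ κ := by
    funext α
    exact GR_cast f κ α
  have hV : (fun n δ => bT (fun δ => krP e D₁ δ) 𝔟
      (fun α => ((H545.GR σ₁ σ₂ u f κ α : ℤ) : ℂ)) n δ) ∈ V N O := by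
    have h1 := V.smul (z := (absNorm 𝔟 : ℂ) ^ κ) (e := 0)
      (by exact_mod_cast nat_mem O (absNorm 𝔟 ^ κ)) key
    rw [hGR]
    have h2 : (fun n δ => bT (fun δ => krP e D₁ δ) 𝔟
        (fun α => gR σ₁ σ₂ u f' α * (absNorm (span {α}) : ℂ) ^ κ) n δ) = fun n δ : ℕ =>
        (absNorm 𝔟 : ℂ) ^ κ * (((δ : ℂ) ^ 2 * n) ^ κ *
          bT (fun δ => krP e D₁ δ) 𝔟 (gR σ₁ σ₂ u f') n δ) := by
      funext n δ
      exact bT_pow _ 𝔟 _ κ n δ
    rw [h2]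
    exact h1
  obtain ⟨m₀, hm₀⟩ : ∃ m₀ : ℕ, (2 : ℝ)⁻¹ ^ m₀ < ε :=
    exists_pow_lt_of_lt_one hε (by norm_num)
  obtain ⟨k, hk⟩ := hV m₀
  refine ⟨k, fun P hP => lt_of_le_of_lt ?_ hm₀⟩
  have h1 := hk P hP 1 1 (Nat.coprime_one_left _)
  have hdat : Dat N (fun ℓ => jacobiSym ((D₁ * 2 ^ e : ℕ) : ℤ) ℓ) (fun δ => krP e D₁ δ)
      (FDK σ₁ σ₂ u) (fun α => ((H545.GR σ₁ σ₂ u f κ α : ℤ) : ℂ)) := by
    refine dat_real hne u _ (fun α hα => ?_) (fun ℓ => ?_) (fun ℓ => ?_) (fun ℓ δ => ?_)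
    · rw [GR_cast, gR_off α hα, zero_mul]
    · rw [hd]
      intro h2
      have h3 : ℓ.1 ∣ D₁ * 2 ^ e := by exact_mod_cast h2
      rcases (Nat.Prime.dvd_mul ℓ.2.1).1 h3 with h4 | h4
      · exact ℓ.2.2 (h4.trans (Dvd.intro (2 * m ^ 2) (by ring)))
      · exact ℓ.2.2 ((ℓ.2.1.dvd_of_dvd_pow h4).trans (dvd_mul_right 2 _))
    · rw [hd]
    · have hℓ : Odd ℓ.1 := by
        refine ℓ.2.1.odd_of_ne_two fun h2 => ℓ.2.2 ?_
        rw [h2]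
        exact dvd_mul_right 2 _
      have h2 := jac_eq_krP (v := e) hD₁ hℓ
      rw [mul_comm (2 ^ e) D₁] at h2
      rw [h2, ← krP_mul]
      push_cast
      rfl
  have h2 := pair_eq hdat (krP_one e hD₁) P h𝔟
  have h3 : ((pair (H545.GR σ₁ σ₂ u f κ) 𝔟 (Lam K N
      (fun ℓ => jacobiSym ((D₁ * 2 ^ e : ℕ) : ℤ) ℓ) P) : ℤ) : ℂ) ∈ two O m₀ := by
    have h4 : ((pair (H545.GR σ₁ σ₂ u f κ) 𝔟 (Lam K N
      (fun ℓ => jacobiSym ((D₁ * 2 ^ e : ℕ) : ℤ) ℓ) P) : ℤ) : ℂ) =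
      pair (fun α => ((H545.GR σ₁ σ₂ u f κ α : ℤ) : ℂ)) 𝔟 (Lam K N
        (fun ℓ => jacobiSym ((D₁ * 2 ^ e : ℕ) : ℤ) ℓ) P) := by
      change Int.castAddHom ℂ (Ev (fun 𝔞 => ∑ᶠ α ∈ {α : 𝓞 K | Ideal.span {α} = 𝔟 * 𝔞},
        H545.GR σ₁ σ₂ u f κ α) _) = Ev (fun 𝔞 => ∑ᶠ α ∈ {α : 𝓞 K | Ideal.span {α} = 𝔟 * 𝔞},
        ((H545.GR σ₁ σ₂ u f κ α : ℤ) : ℂ)) _
      rw [Ev_map]
      congr 2
      funext 𝔞
      have hinj : Function.Injective (Int.castAddHom ℂ) := Int.cast_injective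
      rw [AddMonoidHom.map_finsum_of_injective _ hinj]
      refine finsum_congr fun α => ?_
      rw [AddMonoidHom.map_finsum_of_injective _ hinj]
      rfl
    rw [h4, h2]
    exact h1
  obtain ⟨y, hy, hxy⟩ := h3
  have h4 := (hO ((pair (H545.GR σ₁ σ₂ u f κ) 𝔟 (Lam K N
      (fun ℓ => jacobiSym ((D₁ * 2 ^ e : ℕ) : ℤ) ℓ) P) : ℤ) : ℚ) m₀).1 ⟨y, hy, by
        rw [← zpow_natCast, ← hxy]
        simp⟩
  simpa using h4

end

end Vale.Agent.P022.H761
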